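import Mathlib

/-! [H0], part 2: pointwise linear algebra. -/

noncomputable section
namespace Vale.Agent.P366.H353.N.MC

variable {n : ℕ}

/-- The algebra of the divergence identity. -/
lemma div_alg {x w U : Fin n → ℝ} {N W : Fin n → Fin n → ℝ} {m : Fin n → Fin n → Fin n → ℝ}
    (hx : ∑ i, x i ^ 2 = 1) (hxw : ∑ i, x i * w i = 0) (Ns : ∀ i j, N i j = N j i)
    (Nx : ∀ i, ∑ j, N i j * x j = x i) (Wx : ∀ i, ∑ j, W i j * x j = 0)
    (ms : ∀ c a b, m c a b = m c b a)
    (cod : ∀ c a b, m c a b - m a c b =
      x c * (W a b - ((if a = b then 1 else 0) - x a * x b)) -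
      x a * (W c b - ((if c = b then 1 else 0) - x c * x b)) +
      U c * ((if a = b then 1 else 0) - x a * x b) - U a * ((if c = b then 1 else 0) - x c * x b)) :
    (∑ i, w i * ∑ a, ∑ b, N a b * m i b a) - ∑ i, ∑ k, ∑ l, N i k * m i k l * w l =
      (∑ i, w i * U i) * ((∑ a, N a a) - 1) - ∑ b, (∑ a, N b a * U a) * w b := by
  have e2 : ∑ i, ∑ k, ∑ l, N i k * m i k l * w l = ∑ i, ∑ a, ∑ b, w i * N a b * m a i b := by
    rw [show (∑ i, ∑ a, ∑ b, w i * N a b * m a i b) = ∑ a, ∑ b, ∑ i, w i * N a b * m a i b by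
      rw [Finset.sum_comm]
      exact Finset.sum_congr rfl fun a _ => Finset.sum_comm]
    refine Finset.sum_congr rfl fun a _ => Finset.sum_congr rfl fun b _ =>
      Finset.sum_congr rfl fun i _ => ?_
    rw [ms a b i]; ring
  have e1 : ∑ i, w i * ∑ a, ∑ b, N a b * m i b a = ∑ i, ∑ a, ∑ b, w i * N a b * m i a b := by
    refine Finset.sum_congr rfl fun i _ => ?_
    simp only [Finset.mul_sum]
    refine Finset.sum_congr rfl fun a _ => Finset.sum_congr rfl fun b _ => ?_
    rw [ms i b a]; ring
  rw [e1, e2, ← Finset.sum_sub_distrib]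
  have e3 : ∀ i, (∑ a, ∑ b, w i * N a b * m i a b) - (∑ a, ∑ b, w i * N a b * m a i b) =
      (x i * w i) * (∑ a, ∑ b, N a b * (W a b - ((if a = b then 1 else 0) - x a * x b)))
      - w i * (∑ b, x b * (W i b - ((if i = b then 1 else 0) - x i * x b)))
      + (w i * U i) * (∑ a, ∑ b, N a b * ((if a = b then 1 else 0) - x a * x b))
      - w i * (∑ b, (∑ a, N b a * U a) * ((if i = b then 1 else 0) - x i * x b)) := by
    intro i
    have f1 : ∑ b, x b * (W i b - ((if i = b then 1 else 0) - x i * x b)) =
        ∑ a, ∑ b, N a b * x a * (W i b - ((if i = b then 1 else 0) - x i * x b)) := by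
      rw [Finset.sum_comm]
      refine Finset.sum_congr rfl fun b _ => ?_
      rw [← Finset.sum_mul]
      congr 1
      rw [← Nx b]
      exact Finset.sum_congr rfl fun a _ => by rw [Ns a b]
    have f2 : ∑ b, (∑ a, N b a * U a) * ((if i = b then 1 else 0) - x i * x b) =
        ∑ a, ∑ b, N a b * U a * ((if i = b then 1 else 0) - x i * x b) := by
      rw [Finset.sum_comm]
      refine Finset.sum_congr rfl fun b _ => ?_
      rw [← Finset.sum_mul]
      congr 1
      exact Finset.sum_congr rfl fun a _ => by rw [Ns a b]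
    rw [f1, f2]
    simp only [Finset.mul_sum, ← Finset.sum_sub_distrib, ← Finset.sum_add_distrib]
    refine Finset.sum_congr rfl fun a _ => Finset.sum_congr rfl fun b _ => ?_
    have := cod i a b
    linear_combination (w i * N a b) * this
  simp only [e3]
  have g2 : ∀ i, ∑ b, x b * (W i b - ((if i = b then 1 else 0) - x i * x b)) = 0 := by
    intro i
    have : ∀ b, x b * (W i b - ((if i = b then 1 else 0) - x i * x b)) =
        W i b * x b - (if i = b then x b else 0) + x i * x b ^ 2 := by
      intro b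
      split_ifs <;> ring
    simp only [this, Finset.sum_add_distrib, Finset.sum_sub_distrib, Wx, Finset.sum_ite_eq,
      Finset.mem_univ, if_true, ← Finset.mul_sum, hx]
    ring
  have g3 : ∑ a, ∑ b, N a b * ((if a = b then 1 else 0) - x a * x b) = (∑ a, N a a) - 1 := by
    have : ∀ a, ∑ b, N a b * ((if a = b then 1 else 0) - x a * x b) = N a a - x a ^ 2 := by
      intro a
      have h : ∀ b, N a b * ((if a = b then 1 else 0) - x a * x b) =
          (if a = b then N a b else 0) - x a * (N a b * x b) := by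
        intro b
        split_ifs <;> ring
      simp only [h, Finset.sum_sub_distrib, Finset.sum_ite_eq, Finset.mem_univ, if_true,
        ← Finset.mul_sum, Nx]
      ring
    simp only [this, Finset.sum_sub_distrib, hx]
  have g4 : ∑ i, w i * (∑ b, (∑ a, N b a * U a) * ((if i = b then 1 else 0) - x i * x b)) =
      ∑ b, (∑ a, N b a * U a) * w b := by
    simp only [Finset.mul_sum]
    rw [Finset.sum_comm]
    refine Finset.sum_congr rfl fun b _ => ?_
    have h : ∀ i, w i * ((∑ a, N b a * U a) * ((if i = b then 1 else 0) - x i * x b)) =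
        (if i = b then (∑ a, N b a * U a) * w i else 0) -
        (∑ a, N b a * U a) * x b * (x i * w i) := by
      intro i
      split_ifs <;> ring
    simp only [h, Finset.sum_sub_distrib, Finset.sum_ite_eq', Finset.mem_univ, if_true,
      ← Finset.mul_sum, hxw]
    ring
  simp only [g2, g3, Finset.sum_sub_distrib, Finset.sum_add_distrib, ← Finset.sum_mul, hxw, g4]
  ring

/-- The determinant of `d + (1 - d) x xᵀ`. -/
lemma det_rank1 {x : Fin n → ℝ} (hx : ∑ i, x i ^ 2 = 1) {d : ℝ} (hd : d ≠ 0) (hn : 1 ≤ n) :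
    (Matrix.of fun i j => (if i = j then d else 0) + (1 - d) * (x i * x j)).det = d ^ (n - 1) := by
  have e : (Matrix.of fun i j => (if i = j then d else 0) + (1 - d) * (x i * x j)) =
      d • ((1 : Matrix (Fin n) (Fin n) ℝ) +
        Matrix.replicateCol Unit x * Matrix.replicateRow Unit (fun j => (1 - d) / d * x j)) := by
    ext i j
    simp only [Matrix.of_apply, Matrix.smul_apply, Matrix.add_apply, Matrix.one_apply,
      Matrix.mul_apply, Matrix.replicateCol_apply, Matrix.replicateRow_apply, Finset.univ_unique,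
      Finset.sum_singleton, smul_eq_mul]
    split_ifs <;> field_simp <;> ring
  rw [e, Matrix.det_smul, Matrix.det_one_add_replicateCol_mul_replicateRow, Fintype.card_fin]
  have h2 : (fun j => (1 - d) / d * x j) ⬝ᵥ x = (1 - d) / d := by
    have : ∀ j, (1 - d) / d * x j * x j = (1 - d) / d * x j ^ 2 := fun j => by ring
    simp only [dotProduct, this, ← Finset.mul_sum, hx, mul_one]
  rw [h2]
  obtain ⟨k, rfl⟩ : ∃ k, n = k + 1 := ⟨n - 1, by omega⟩
  rw [Nat.add_sub_cancel]
  field_simp
  ring

end Vale.Agent.P366.H353.N.MC
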