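import Vale.Agent.P366.H381.NH0a
import Vale.Agent.P366.H381.NH0b
import Vale.Agent.P366.H353.N.Dat

/-! [H0]: the data of a null shell form an admissible tensor field. -/

open MeasureTheory Metric Filter Topology Set
open scoped ContDiff

noncomputable section
namespace Vale.Agent.P366.H353.N

open Vale.Agent.P366 (sphI sphM pd E)

namespace Dat

variable {n : ℕ} (D : Dat n)

lemma sum_sq (x : E n) : ∑ i, x i ^ 2 = ‖x‖ ^ 2 := (EuclideanSpace.real_norm_sq_eq x).symm

lemma M_apply (x : E n) (i j : Fin n) : D.M x i j = D.W x i j + x i * x j / ‖x‖ ^ 2 := rfl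

lemma sm_nn {i j : Fin n} : Sm fun x : E n => x i * x j / ‖x‖ ^ 2 :=
  ((Sm.coord i).mul (Sm.coord j)).div (Sm.norm.pow 2) fun _ hx =>
    pow_ne_zero 2 (norm_ne_zero_iff.2 hx)

lemma smW (i j : Fin n) : Sm fun x => D.W x i j :=
  (Sm.norm.mul (D.smH.hs i j)).add (D.smU.mul ((Sm.const _).sub sm_nn))

lemma smM (i j : Fin n) : Sm fun x => D.M x i j := (D.smW i j).add sm_nn

lemma W_smul {x : E n} (hx : x ≠ 0) {r : ℝ} (hr : 0 < r) (i j : Fin n) :
    D.W (r • x) i j = D.W x i j := by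
  have h1 : hs D.H i j (r • x) = r ^ (-1 : ℤ) * hs D.H i j x := by
    have := (D.homH.hs D.smH i j) x hx r hr
    rw [this]; norm_num
  have h2 : D.U (r • x) = D.U x := by
    have := D.homU x hx r hr
    rw [this]; simp
  have hn := norm_ne_zero_iff.2 hx
  unfold W
  rw [h1, h2, norm_smul, Real.norm_eq_abs, abs_of_pos hr]
  simp only [PiLp.smul_apply, smul_eq_mul, zpow_neg, zpow_one]
  field_simp

lemma M_smul {x : E n} (hx : x ≠ 0) {r : ℝ} (hr : 0 < r) : D.M (r • x) = D.M x := by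
  ext i j
  rw [M_apply, M_apply, D.W_smul hx hr, norm_smul, Real.norm_eq_abs, abs_of_pos hr]
  simp only [PiLp.smul_apply, smul_eq_mul]
  have hn := norm_ne_zero_iff.2 hx
  field_simp

lemma W_symm (x : E n) (i j : Fin n) : D.W x i j = D.W x j i := by
  unfold W
  by_cases hx : x = 0
  · subst hx
    simp [kd, eq_comm]
  · rw [hs_symm D.smH hx i j]
    simp only [kd, eq_comm (a := i) (b := j), mul_comm (x i) (x j)]

lemma M_symm (x : E n) (i j : Fin n) : D.M x i j = D.M x j i := by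
  rw [M_apply, M_apply, D.W_symm, mul_comm (x i) (x j)]

lemma W_x {x : E n} (hx : x ≠ 0) (i : Fin n) : ∑ j, D.W x i j * x j = 0 := by
  have hn := norm_ne_zero_iff.2 hx
  have h1 : ∑ j, x j * hs D.H j i x = 0 := by
    have := (D.homH.pd D.smH i).euler (D.smH.pd i) hx
    unfold hs
    rw [this]; norm_num
  have h2 : ∀ j, D.W x i j * x j = ‖x‖ * (x j * hs D.H j i x) +
      D.U x * ((if i = j then x j else 0) - x i * x j ^ 2 / ‖x‖ ^ 2) := by
    intro j
    unfold W kd
    rw [hs_symm D.smH hx i j]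
    split_ifs <;> ring
  simp only [h2, Finset.sum_add_distrib, ← Finset.mul_sum, h1, Finset.sum_sub_distrib,
    Finset.sum_ite_eq, Finset.mem_univ, if_true]
  have h3 : ∑ j, x i * x j ^ 2 / ‖x‖ ^ 2 = x i := by
    rw [← Finset.sum_div, ← Finset.mul_sum, sum_sq]
    field_simp
  rw [h3]
  ring

lemma M_x {x : E n} (hx : x ≠ 0) (i : Fin n) : ∑ j, D.M x i j * x j = x i := by
  have hn := norm_ne_zero_iff.2 hx
  have h2 : ∀ j, D.M x i j * x j = D.W x i j * x j + x i * x j ^ 2 / ‖x‖ ^ 2 := by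
    intro j
    rw [M_apply]
    ring
  simp only [h2, Finset.sum_add_distrib, D.W_x hx]
  rw [← Finset.sum_div, ← Finset.mul_sum, sum_sq]
  field_simp
  ring

lemma M_posDef_one {x : E n} (hx : ‖x‖ = 1) : (D.M x).PosDef := by
  have hx0 := ne_zero_of_one hx
  refine Matrix.PosDef.of_dotProduct_mulVec_pos ?_ fun v hv => ?_
  · ext i j
    simp only [Matrix.conjTranspose_apply, star_trivial]
    exact D.M_symm x j i
  · simp only [star_trivial]
    have hs1 : ∑ i, x i ^ 2 = 1 := by rw [sum_sq, hx]; norm_num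
    obtain ⟨α, hα⟩ : ∃ α : ℝ, α = ∑ i, x i * v i := ⟨_, rfl⟩
    obtain ⟨w, hw⟩ : ∃ w : Fin n → ℝ, w = fun i => v i - α * x i := ⟨_, rfl⟩
    have hxw : ∑ i, x i * w i = 0 := by
      have : ∀ i, x i * w i = x i * v i - α * x i ^ 2 := fun i => by simp only [hw]; ring
      simp only [this, Finset.sum_sub_distrib, ← Finset.mul_sum, hs1, ← hα]
      ring
    have e1 : v ⬝ᵥ (D.M x).mulVec v = ∑ i, ∑ j, D.M x i j * (v i * v j) := by
      simp only [dotProduct, Matrix.mulVec, Finset.mul_sum]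
      exact Finset.sum_congr rfl fun i _ => Finset.sum_congr rfl fun j _ => by ring
    have e2 : ∑ i, ∑ j, D.M x i j * (v i * v j) =
        α ^ 2 + (qf (fun i j => hs D.H i j x) w w + D.U x * ∑ i, w i ^ 2) := by
      have hWx : ∀ j, ∑ i, D.W x i j * x i = 0 := fun j => by
        rw [← D.W_x hx0 j]
        exact Finset.sum_congr rfl fun i _ => by rw [D.W_symm]
      have f1 : ∑ i, ∑ j, D.M x i j * (v i * v j) =
          (∑ i, ∑ j, D.W x i j * (w i * w j)) + α * (∑ i, w i * ∑ j, D.W x i j * x j) +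
          α * (∑ j, v j * ∑ i, D.W x i j * x i) + (∑ i, x i * v i) * (∑ j, x j * v j) := by
        have q3 : (∑ j, v j * ∑ i, D.W x i j * x i) = ∑ i, ∑ j, v j * (D.W x i j * x i) := by
          rw [Finset.sum_comm]
          exact Finset.sum_congr rfl fun j _ => Finset.mul_sum _ _ _
        have q2 : (∑ i, w i * ∑ j, D.W x i j * x j) = ∑ i, ∑ j, w i * (D.W x i j * x j) :=
          Finset.sum_congr rfl fun i _ => Finset.mul_sum _ _ _
        rw [q3, q2, Finset.sum_mul_sum, Finset.mul_sum, Finset.mul_sum, ← Finset.sum_add_distrib,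
          ← Finset.sum_add_distrib, ← Finset.sum_add_distrib]
        refine Finset.sum_congr rfl fun i _ => ?_
        rw [Finset.mul_sum, Finset.mul_sum, ← Finset.sum_add_distrib,
          ← Finset.sum_add_distrib, ← Finset.sum_add_distrib]
        refine Finset.sum_congr rfl fun j _ => ?_
        rw [M_apply, hx]
        simp only [hw]
        ring
      have f2 : ∑ i, ∑ j, D.W x i j * (w i * w j) =
          qf (fun i j => hs D.H i j x) w w + D.U x * ∑ i, w i ^ 2 := by
        have g1 : ∀ i j, D.W x i j * (w i * w j) = hs D.H i j x * w i * w j +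
            D.U x * ((if i = j then w i * w j else 0) - (x i * w i) * (x j * w j)) := by
          intro i j
          unfold W kd
          rw [hx]
          split_ifs <;> ring
        simp only [g1, Finset.sum_add_distrib, ← Finset.mul_sum, Finset.sum_sub_distrib,
          Finset.sum_ite_eq, Finset.mem_univ, if_true, hxw]
        simp only [← sq, mul_zero, Finset.sum_const_zero, sub_zero]
        rfl
      rw [f1, f2, ← hα]
      simp only [D.W_x hx0, hWx, mul_zero, Finset.sum_const_zero, add_zero]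
      ring
    rw [e1, e2]
    by_cases hw0 : w = 0
    · have hα0 : α ≠ 0 := by
        intro h
        apply hv
        ext i
        have := congrFun hw0 i
        simp only [hw, h, zero_mul, sub_zero, Pi.zero_apply] at this
        exact this
      have h3 : qf (fun i j => hs D.H i j x) w w + D.U x * ∑ i, w i ^ 2 = 0 := by
        rw [hw0]; simp [qf]
      rw [h3, add_zero]
      positivity
    · have := D.pos x hx w hxw hw0
      positivity

lemma M_posDef {x : E n} (hx : x ≠ 0) : (D.M x).PosDef := by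
  have hn := norm_ne_zero_iff.2 hx
  have h1 := D.M_posDef_one (x := ‖x‖⁻¹ • x) (by
    rw [norm_smul, norm_inv, norm_norm, inv_mul_cancel₀ hn])
  rwa [D.M_smul hx (inv_pos.2 (norm_pos_iff.2 hx))] at h1

lemma dt_pos {x : E n} (hx : x ≠ 0) : 0 < D.dt x := (D.M_posDef hx).det_pos

lemma det_ne {x : E n} (hx : x ≠ 0) : (D.M x).det ≠ 0 := (D.dt_pos hx).ne'

lemma adj_eq {x : E n} (hx : x ≠ 0) (i j : Fin n) :
    (D.M x).adjugate i j = D.dt x * (D.M x)⁻¹ i j := by
  rw [MC.inv_eq]
  unfold dt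
  rw [mul_inv_cancel_left₀ (D.det_ne hx)]

lemma inv_symm (x : E n) (i j : Fin n) : (D.M x)⁻¹ i j = (D.M x)⁻¹ j i := by
  have h : (D.M x).transpose = D.M x := by
    ext i j
    exact D.M_symm x j i
  have := Matrix.transpose_nonsing_inv (D.M x)
  rw [h] at this
  exact congrFun (congrFun this j) i

lemma inv_x {x : E n} (hx : x ≠ 0) (i : Fin n) : ∑ j, (D.M x)⁻¹ i j * x j = x i := by
  have h1 : (D.M x).mulVec (fun j => x j) = fun j => x j := by
    ext i
    exact D.M_x hx i
  have h2 : (D.M x)⁻¹.mulVec ((D.M x).mulVec (fun j => x j)) = fun j => x j := by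
    rw [Matrix.mulVec_mulVec, Matrix.nonsing_inv_mul _ (isUnit_iff_ne_zero.2 (D.det_ne hx)),
      Matrix.one_mulVec]
  rw [h1] at h2
  exact congrFun h2 i

lemma A_eq {x : E n} (hx : x ≠ 0) (i j : Fin n) :
    D.A x i j = D.dt x * ((D.M x)⁻¹ i j - x i * x j / ‖x‖ ^ 2) := by
  unfold A
  rw [D.adj_eq hx]
  ring

lemma A_symm (x : E n) (i j : Fin n) : D.A x i j = D.A x j i := by
  have h : (D.M x).transpose = D.M x := by
    ext i j
    exact D.M_symm x j i
  have h2 := Matrix.adjugate_transpose (D.M x)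
  rw [h] at h2
  have h3 : (D.M x).adjugate i j = (D.M x).adjugate j i := by
    conv_rhs => rw [← h2]
    rfl
  unfold A
  rw [h3, mul_comm (x i) (x j)]

lemma sum_xx {x : E n} (hx : x ≠ 0) (i : Fin n) : ∑ j, x i * x j / ‖x‖ ^ 2 * x j = x i := by
  have hn := norm_ne_zero_iff.2 hx
  have : ∀ j, x i * x j / ‖x‖ ^ 2 * x j = x i / ‖x‖ ^ 2 * x j ^ 2 := fun j => by ring
  simp only [this, ← Finset.mul_sum, sum_sq]
  field_simp

lemma A_x {x : E n} (hx : x ≠ 0) (i : Fin n) : ∑ j, D.A x i j * x j = 0 := by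
  simp only [D.A_eq hx, mul_assoc, sub_mul, ← Finset.mul_sum, Finset.sum_sub_distrib]
  rw [D.inv_x hx]
  have := sum_xx hx i
  simp only [mul_div_assoc, mul_assoc] at this ⊢
  rw [this, sub_self, mul_zero]

lemma smA (i j : Fin n) : Sm fun x => D.A x i j :=
  (MC.sm_adj D.smM i j).sub ((MC.sm_det D.smM).mul sm_nn)

lemma homA (i j : Fin n) : Hom 0 fun x => D.A x i j := by
  intro x hx r hr
  have hn := norm_ne_zero_iff.2 hx
  change D.A (r • x) i j = _
  unfold A dt
  rw [D.M_smul hx hr, norm_smul, Real.norm_eq_abs, abs_of_pos hr]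
  simp only [PiLp.smul_apply, smul_eq_mul, zpow_zero, one_mul]
  field_simp

lemma smb (i : Fin n) : Sm fun x => D.b x i :=
  Sm.sum _ fun j => (MC.sm_inv D.smM (fun _ hx => D.det_ne hx) i j).mul
    (Sm.norm.mul (D.smU.pd j))

lemma homb (i : Fin n) : Hom 0 fun x => D.b x i := by
  intro x hx r hr
  change D.b (r • x) i = _
  unfold b
  rw [D.M_smul hx hr, norm_smul, Real.norm_eq_abs, abs_of_pos hr, zpow_zero, one_mul]
  refine Finset.sum_congr rfl fun j _ => ?_
  rw [(D.homU.pd D.smU j) x hx r hr]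
  have : r ^ ((0 : ℤ) - 1) = r⁻¹ := by
    rw [zero_sub, zpow_neg, zpow_one]
  rw [this]
  field_simp

lemma b_x {x : E n} (hx : x ≠ 0) : ∑ i, x i * D.b x i = 0 := by
  unfold b
  simp only [Finset.mul_sum]
  rw [Finset.sum_comm]
  have h1 : ∀ j, ∑ i, x i * ((D.M x)⁻¹ i j * (‖x‖ * pd j D.U x)) = ‖x‖ * (x j * pd j D.U x) := by
    intro j
    have : ∀ i, x i * ((D.M x)⁻¹ i j * (‖x‖ * pd j D.U x)) =
        (‖x‖ * pd j D.U x) * ((D.M x)⁻¹ j i * x i) := fun i => by
      rw [D.inv_symm x i j]; ring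
    simp only [this, ← Finset.mul_sum, D.inv_x hx]
    ring
  simp only [h1, ← Finset.mul_sum]
  rw [D.homU.euler D.smU hx]
  simp

/-- third derivatives commute -/
lemma hs3 {H : E n → ℝ} (hH : Sm H) {x : E n} (hx : x ≠ 0) (a b c : Fin n) :
    pd c (fun y => hs H a b y) x = pd a (fun y => hs H c b y) x := by
  change hs (pd b H) c a x = hs (pd b H) a c x
  exact hs_symm (hH.pd b) hx c a

lemma pd_nn {x : E n} (hx : ‖x‖ = 1) (c a b : Fin n) :
    pd c (fun y : E n => y a * y b / ‖y‖ ^ 2) x =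
      kd c a * x b + x a * kd c b - 2 * x a * x b * x c := by
  have hx0 := ne_zero_of_one hx
  have hn : Sm fun x : E n => (‖x‖ ^ 2)⁻¹ := (Sm.norm.pow 2).inv fun x hx =>
    pow_ne_zero 2 (norm_ne_zero_iff.2 hx)
  have h2 : pd c (fun y : E n => ‖y‖ ^ 2) x = 2 * x c := by
    have e : (fun y : E n => ‖y‖ ^ 2) = fun y => ‖y‖ * ‖y‖ := by funext y; ring
    rw [e, pd_mul' Sm.norm Sm.norm hx0, pd_norm' hx0, hx]
    ring
  have h1 : pd c (fun y : E n => (‖y‖ ^ 2)⁻¹) x = - 2 * x c := by
    have h3 := pd_mul' (Sm.norm.pow 2) hn hx0 c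
    have h4 : pd c (fun y : E n => ‖y‖ ^ 2 * (‖y‖ ^ 2)⁻¹) x = 0 := by
      rw [pd_congr' (h := fun y : E n => ‖y‖ ^ 2 * (‖y‖ ^ 2)⁻¹) (f := fun _ => (1 : ℝ))
        (fun y hy => mul_inv_cancel₀ (pow_ne_zero 2 (norm_ne_zero_iff.2 hy))) hx0,
        Vale.Agent.P366.pd_const]
    rw [h4, h2, hx] at h3
    norm_num at h3
    linarith
  have e : (fun y : E n => y a * y b / ‖y‖ ^ 2) = fun y => (y a * y b) * (‖y‖ ^ 2)⁻¹ := by
    funext y; rw [div_eq_mul_inv]
  rw [e, pd_mul' ((Sm.coord a).mul (Sm.coord b)) hn hx0, pd_mul' (Sm.coord a) (Sm.coord b) hx0,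
    pd_coord', pd_coord', h1, hx]
  norm_num
  ring

lemma pd_M {x : E n} (hx : ‖x‖ = 1) (c a b : Fin n) :
    pd c (fun y => D.M y a b) x = x c * hs D.H a b x + pd c (fun y => hs D.H a b y) x +
      pd c D.U x * (kd a b - x a * x b) +
      (1 - D.U x) * (kd c a * x b + x a * kd c b - 2 * x a * x b * x c) := by
  have hx0 := ne_zero_of_one hx
  have e : (fun y => D.M y a b) = fun y => ‖y‖ * hs D.H a b y +
      D.U y * (kd a b - y a * y b / ‖y‖ ^ 2) + y a * y b / ‖y‖ ^ 2 := by
    funext y; rfl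
  have s1 : Sm fun y : E n => kd a b - y a * y b / ‖y‖ ^ 2 := (Sm.const _).sub sm_nn
  rw [e, pd_add' ((Sm.norm.mul (D.smH.hs a b)).add (D.smU.mul s1)) sm_nn hx0,
    pd_add' (Sm.norm.mul (D.smH.hs a b)) (D.smU.mul s1) hx0, pd_mul' Sm.norm (D.smH.hs a b) hx0,
    pd_mul' D.smU s1 hx0, pd_sub' (Sm.const _) sm_nn hx0, Vale.Agent.P366.pd_const, pd_nn hx,
    pd_norm' hx0, hx]
  norm_num
  ring

lemma codazzi {x : E n} (hx : ‖x‖ = 1) (c a b : Fin n) :
    pd c (fun y => D.M y a b) x - pd a (fun y => D.M y c b) x =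
      x c * (D.W x a b - ((if a = b then 1 else 0) - x a * x b)) -
      x a * (D.W x c b - ((if c = b then 1 else 0) - x c * x b)) +
      pd c D.U x * ((if a = b then 1 else 0) - x a * x b) -
      pd a D.U x * ((if c = b then 1 else 0) - x c * x b) := by
  have hx0 := ne_zero_of_one hx
  rw [D.pd_M hx, D.pd_M hx, hs3 D.smH hx0 a b c]
  unfold W
  rw [hx]
  have k1 : kd c a = kd a c := by unfold kd; simp only [eq_comm]
  rw [k1]
  simp only [kd]
  ring

lemma A_posDef {x : E n} (hx : ‖x‖ = 1) (v : Fin n → ℝ) (hv : ∑ i, x i * v i = 0) (hv0 : v ≠ 0) :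
    0 < qf (D.A x) v v := by
  have hx0 := ne_zero_of_one hx
  have h1 := (D.M_posDef hx0).inv.dotProduct_mulVec_pos hv0
  simp only [star_trivial] at h1
  have e : qf (D.A x) v v = D.dt x * (v ⬝ᵥ (D.M x)⁻¹.mulVec v) := by
    have g : ∀ i j, D.A x i j * v i * v j =
        D.dt x * (v i * ((D.M x)⁻¹ i j * v j)) - D.dt x * ((x i * v i) * (x j * v j)) := by
      intro i j
      rw [D.A_eq hx0, hx]
      ring
    unfold qf
    simp only [g, Finset.sum_sub_distrib, ← Finset.mul_sum, hv, mul_zero,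
      sub_zero]
    rfl
  rw [e]
  exact mul_pos (D.dt_pos hx0) h1

lemma divA {x : E n} (hx : ‖x‖ = 1) (v : Fin n → ℝ) (hv : ∑ i, x i * v i = 0) :
    ∑ j, (∑ i, pd i (fun y => D.A y i j) x) * v j =
      ∑ j, (tr (D.A x) * D.b x j - ∑ k, D.A x j k * D.b x k) * v j := by
  have hx0 := ne_zero_of_one hx
  have hdn : ∀ x, x ≠ 0 → (D.M x).det ≠ 0 := fun x hx => D.det_ne hx
  have hs1 : ∑ i, x i ^ 2 = 1 := by rw [sum_sq, hx]; norm_num
  set N : Fin n → Fin n → ℝ := fun i j => (D.M x)⁻¹ i j with hN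
  set m : Fin n → Fin n → Fin n → ℝ := fun c a b => pd c (fun y => D.M y a b) x with hm
  set d : ℝ := D.dt x with hd
  set w : Fin n → ℝ := fun i => ∑ j, N i j * v j with hw
  have Ns : ∀ i j, N i j = N j i := fun i j => D.inv_symm x i j
  have Nx : ∀ i, ∑ j, N i j * x j = x i := fun i => D.inv_x hx0 i
  have hxw : ∑ i, x i * w i = 0 := by
    simp only [hw, Finset.mul_sum]
    rw [Finset.sum_comm]
    have : ∀ j, ∑ i, x i * (N i j * v j) = x j * v j := by
      intro j
      have : ∀ i, x i * (N i j * v j) = v j * (N j i * x i) := fun i => by rw [Ns i j]; ring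
      simp only [this, ← Finset.mul_sum, Nx]
      ring
    simp only [this, hv]
  have key := MC.div_alg (x := fun i => x i) (w := w) (U := fun i => pd i D.U x) (N := N)
    (W := D.W x) (m := m) hs1 hxw Ns Nx (fun i => D.W_x hx0 i)
    (fun c a b => by
      simp only [hm]
      congr 1
      funext y
      exact D.M_symm y a b)
    (fun c a b => D.codazzi hx c a b)
  -- the left hand side
  have eA : ∀ i j, pd i (fun y => D.A y i j) x =
      (d * ∑ a, ∑ b, N a b * m i b a) * (N i j - x i * x j) +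
      d * (-(∑ k, ∑ l, N i k * m i k l * N l j) -
        (kd i i * x j + x i * kd i j - 2 * x i * x j * x i)) := by
    intro i j
    have s1 := MC.sm_inv D.smM hdn i j
    have e1 : pd i (fun y => D.A y i j) x =
        pd i (fun y => (D.M y).det * ((D.M y)⁻¹ i j - y i * y j / ‖y‖ ^ 2)) x :=
      pd_congr' (fun y hy => D.A_eq hy i j) hx0 i
    rw [e1, pd_mul' (MC.sm_det D.smM) (s1.sub sm_nn) hx0, pd_sub' s1 sm_nn hx0,
      MC.pd_det D.smM hx0, MC.pd_inv D.smM hdn hx0, pd_nn hx, hx]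
    have e2 : ∑ a, ∑ b, (D.M x).adjugate a b * pd i (fun y => D.M y b a) x =
        d * ∑ a, ∑ b, N a b * m i b a := by
      simp only [Finset.mul_sum]
      refine Finset.sum_congr rfl fun a _ => Finset.sum_congr rfl fun b _ => ?_
      rw [D.adj_eq hx0]
      ring
    have e3 : ∑ k, ∑ l, (D.M x)⁻¹ i k * pd i (fun y => D.M y k l) x * (D.M x)⁻¹ l j =
      ∑ k, ∑ l, N i k * m i k l * N l j := rfl
    rw [e2, e3, show (D.M x)⁻¹ i j = N i j from rfl, show (D.M x).det = d from rfl]
    norm_num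
    ring
  have L : ∑ j, (∑ i, pd i (fun y => D.A y i j) x) * v j =
      d * ((∑ i, w i * ∑ a, ∑ b, N a b * m i b a) - ∑ i, ∑ k, ∑ l, N i k * m i k l * w l) := by
    have f0 : ∑ j, (∑ i, pd i (fun y => D.A y i j) x) * v j =
        ∑ i, ∑ j, pd i (fun y => D.A y i j) x * v j := by
      simp only [Finset.sum_mul]
      exact Finset.sum_comm
    have f1 : ∀ i, ∑ j, pd i (fun y => D.A y i j) x * v j =
        d * (w i * ∑ a, ∑ b, N a b * m i b a) - d * (∑ k, ∑ l, N i k * m i k l * w l) -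
        d * (x i * v i) := by
      intro i
      have g1 : ∀ j, pd i (fun y => D.A y i j) x * v j =
          (d * ∑ a, ∑ b, N a b * m i b a) * (N i j * v j) -
          (d * ∑ a, ∑ b, N a b * m i b a) * x i * (x j * v j) -
          d * ((∑ k, ∑ l, N i k * m i k l * N l j) * v j) -
          d * (1 - 2 * x i ^ 2) * (x j * v j) - d * x i * (if i = j then v j else 0) := by
        intro j
        rw [eA i j]
        simp only [kd, if_true]
        split_ifs <;> ring
      simp only [g1, Finset.sum_sub_distrib, ← Finset.mul_sum, hv, Finset.sum_ite_eq,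
        Finset.mem_univ, if_true]
      have g2 : ∑ j, (∑ k, ∑ l, N i k * m i k l * N l j) * v j =
          ∑ k, ∑ l, N i k * m i k l * w l := by
        simp only [Finset.sum_mul, hw, Finset.mul_sum]
        rw [Finset.sum_comm]
        refine Finset.sum_congr rfl fun k _ => ?_
        rw [Finset.sum_comm]
        exact Finset.sum_congr rfl fun l _ => Finset.sum_congr rfl fun j _ => by ring
      rw [g2]
      ring
    rw [f0]
    simp only [f1, Finset.sum_sub_distrib, ← Finset.mul_sum, hv]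
    ring
  -- the right hand side
  have eb : ∀ j, D.b x j = ∑ a, N j a * pd a D.U x := by
    intro j
    unfold b
    rw [hx]
    exact Finset.sum_congr rfl fun a _ => by rw [one_mul]
  have R : ∑ j, (tr (D.A x) * D.b x j - ∑ k, D.A x j k * D.b x k) * v j =
      d * ((∑ i, w i * pd i D.U x) * ((∑ a, N a a) - 1) -
        ∑ b, (∑ a, N b a * pd a D.U x) * w b) := by
    have t1 : tr (D.A x) = d * ((∑ a, N a a) - 1) := by
      unfold tr
      have : ∀ i, D.A x i i = d * N i i - d * x i ^ 2 := fun i => by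
        rw [D.A_eq hx0, hx]; simp only [hN, hd]; ring
      simp only [this, Finset.sum_sub_distrib, ← Finset.mul_sum, hs1]
      ring
    have t2 : ∀ j, ∑ k, D.A x j k * D.b x k = d * ∑ k, N j k * D.b x k := by
      intro j
      have : ∀ k, D.A x j k * D.b x k = d * (N j k * D.b x k) - d * x j * (x k * D.b x k) :=
        fun k => by rw [D.A_eq hx0, hx]; simp only [hN, hd]; ring
      simp only [this, Finset.sum_sub_distrib, ← Finset.mul_sum, D.b_x hx0]
      ring
    have t3 : ∑ j, D.b x j * v j = ∑ i, w i * pd i D.U x := by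
      simp only [eb, hw, Finset.sum_mul]
      rw [Finset.sum_comm]
      refine Finset.sum_congr rfl fun a _ => Finset.sum_congr rfl fun j _ => ?_
      rw [Ns j a]; ring
    have t4 : ∑ j, (∑ k, N j k * D.b x k) * v j = ∑ b, (∑ a, N b a * pd a D.U x) * w b := by
      simp only [← eb, hw, Finset.sum_mul, Finset.mul_sum]
      rw [Finset.sum_comm]
      refine Finset.sum_congr rfl fun a _ => Finset.sum_congr rfl fun j _ => ?_
      rw [Ns j a]; ring
    have : ∀ j, (tr (D.A x) * D.b x j - ∑ k, D.A x j k * D.b x k) * v j =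
        tr (D.A x) * (D.b x j * v j) - d * ((∑ k, N j k * D.b x k) * v j) := by
      intro j
      rw [t2]; ring
    simp only [this, Finset.sum_sub_distrib, ← Finset.mul_sum]
    rw [t3, t4, t1]
    ring
  rw [L, R, key]

/-- the tensor field of a null shell -/
def ten (D : Dat n) : Ten n where
  A := D.A
  b := D.b
  smA := D.smA
  homA := D.homA
  symA := D.A_symm
  tanA := fun _ hx i => D.A_x hx i
  posA := fun _ hx v hv hv0 => D.A_posDef hx v hv hv0
  smb := D.smb
  homb := D.homb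
  tanb := fun _ hx => D.b_x hx
  divA := fun _ hx v hv => D.divA hx v hv

lemma dA_eq (hn : 2 ≤ n) {x : E n} (hx : ‖x‖ = 1) :
    dtan x (D.A x) = D.dt x ^ (n - 2) := by
  have hx0 := ne_zero_of_one hx
  have hs1 : ∑ i, x i ^ 2 = 1 := by rw [sum_sq, hx]; norm_num
  have hd := (D.dt_pos hx0).ne'
  have e : (Matrix.of fun i j => D.A x i j + x i * x j) * D.M x =
      Matrix.of fun i j => (if i = j then D.dt x else 0) + (1 - D.dt x) * (x i * x j) := by
    ext i j
    rw [Matrix.mul_apply]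
    have h1 : ∀ k, (Matrix.of fun i j => D.A x i j + x i * x j) i k * D.M x k j =
        D.dt x * ((D.M x)⁻¹ i k * D.M x k j) + (1 - D.dt x) * x i * (D.M x j k * x k) := by
      intro k
      rw [Matrix.of_apply, D.A_eq hx0, hx, D.M_symm x k j]
      ring
    have h2 : ∑ k, (D.M x)⁻¹ i k * D.M x k j = (1 : Matrix (Fin n) (Fin n) ℝ) i j := by
      rw [← Matrix.mul_apply, Matrix.nonsing_inv_mul _ (isUnit_iff_ne_zero.2 (D.det_ne hx0))]
    rw [Finset.sum_congr rfl fun k _ => h1 k]
    simp only [Finset.sum_add_distrib, ← Finset.mul_sum, h2, D.M_x hx0, Matrix.of_apply,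
      Matrix.one_apply]
    split_ifs <;> ring
  have h2 := congrArg Matrix.det e
  rw [Matrix.det_mul, MC.det_rank1 hs1 hd (by omega)] at h2
  obtain ⟨k, rfl⟩ : ∃ k, n = k + 2 := ⟨n - 2, by omega⟩
  simp only [Nat.add_sub_cancel] at h2 ⊢
  rw [show k + 2 - 1 = k + 1 by omega, pow_succ] at h2
  exact mul_right_cancel₀ hd h2

end Dat

variable {n : ℕ} [Fact (3 ≤ n)]

theorem toTen (D : Dat n) : ∃ T : Ten n, T.A = D.A ∧ T.b = D.b ∧
    ∀ x : E n, ‖x‖ = 1 → T.G x = D.dt x := by
  refine ⟨D.ten, rfl, rfl, fun x hx => ?_⟩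
  have h3 := Fact.out (p := 3 ≤ n)
  have hx0 := ne_zero_of_one hx
  unfold Ten.G Ten.dA
  change dtan x (D.A x) ^ (1 / ((n : ℝ) - 2)) = D.dt x
  rw [D.dA_eq (by omega) hx]
  have h4 : ((n - 2 : ℕ) : ℝ) = (n : ℝ) - 2 := by
    rw [Nat.cast_sub (by omega)]; norm_num
  rw [← h4, one_div]
  exact Real.pow_rpow_inv_natCast (D.dt_pos hx0).le (by omega)

end Vale.Agent.P366.H353.N
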