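import Vale.Agent.P366.H353.N.Alg

/-! [A1], first part: the spaces of polynomials on the sphere. -/

open MeasureTheory Metric Filter Topology Set
open scoped ContDiff

noncomputable section
namespace Vale.Agent.P366.H353.N

open Vale.Agent.P366 (sphI sphM pd E)

variable {n : ℕ}

/-- The function `x_i / ‖x‖`. -/
def XA (i : Fin n) : QA n :=
  ⟨fun x => x i / ‖x‖, ⟨(Sm.coord i).div Sm.norm fun x hx => norm_ne_zero_iff.2 hx,
    fun x hx r hr => by
      rw [norm_smul, Real.norm_eq_abs, abs_of_pos hr]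
      simp only [PiLp.smul_apply, smul_eq_mul, zpow_zero, one_mul]
      have := norm_ne_zero_iff.2 hx
      field_simp⟩⟩

lemma XA_apply (i : Fin n) (x : E n) : (XA i : E n → ℝ) x = x i / ‖x‖ := rfl

/-- The span of the products of at most `N` functions `x_i / ‖x‖`. -/
def VN (n N : ℕ) : Submodule ℝ (QA n) :=
  Submodule.span ℝ (range fun w : {l : List (Fin n) // l.length ≤ N} => (w.1.map XA).prod)

theorem VN_fin (N : ℕ) : FiniteDimensional ℝ (VN n N) := by
  have : Finite {l : List (Fin n) // l.length ≤ N} := (List.finite_length_le (Fin n) N).to_subtype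
  exact FiniteDimensional.span_of_finite ℝ (Set.finite_range _)

lemma VN_list {l : List (Fin n)} {N : ℕ} (h : l.length ≤ N) : (l.map XA).prod ∈ VN n N :=
  Submodule.subset_span ⟨⟨l, h⟩, rfl⟩

theorem VN_mono : Monotone (VN n) := by
  intro N M h
  refine Submodule.span_mono ?_
  rintro _ ⟨w, rfl⟩
  exact ⟨⟨w.1, w.2.trans h⟩, rfl⟩

lemma VN_mul {N M : ℕ} {f g : QA n} (hf : f ∈ VN n N) (hg : g ∈ VN n M) :
    f * g ∈ VN n (N + M) := by
  have h1 : VN n N * VN n M ≤ VN n (N + M) := by
    unfold VN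
    rw [Submodule.span_mul_span]
    refine Submodule.span_mono ?_
    rintro _ ⟨_, ⟨v, rfl⟩, _, ⟨w, rfl⟩, rfl⟩
    refine ⟨⟨v.1 ++ w.1, ?_⟩, ?_⟩
    · rw [List.length_append]; exact add_le_add v.2 w.2
    · simp only [List.map_append, List.prod_append]
  exact h1 (Submodule.mul_mem_mul hf hg)

lemma VN_XA (i : Fin n) : XA i ∈ VN n 1 := by
  have := VN_list (l := [i]) (N := 1) (by simp)
  simpa using this

lemma RA_XA (s : Fin n × Fin n) (i : Fin n) :
    RA s (XA i) = kd s.2 i • XA s.1 - kd s.1 i • XA s.2 := by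
  ext x
  rw [RA_apply]
  change Rot s.1 s.2 (fun x => x i / ‖x‖) x = kd s.2 i * (x s.1 / ‖x‖) - kd s.1 i * (x s.2 / ‖x‖)
  by_cases hx : x = 0
  · subst hx; simp [Rot]
  · have hn : Sm fun x : E n => ‖x‖⁻¹ := Sm.norm.inv fun x hx => norm_ne_zero_iff.2 hx
    have hx' := norm_ne_zero_iff.2 hx
    have e : (fun x : E n => x i / ‖x‖) = fun x => x i * ‖x‖⁻¹ := by
      funext x; rw [div_eq_mul_inv]
    have h1 : ∀ j : Fin n, pd j (fun x : E n => ‖x‖⁻¹) x = - x j / ‖x‖ ^ 3 := by
      intro j
      have h2 := pd_mul' (Sm.norm (n := n)) hn hx j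
      have h3 : pd j (fun y : E n => ‖y‖ * ‖y‖⁻¹) x = 0 := by
        rw [pd_congr' (h := fun y : E n => ‖y‖ * ‖y‖⁻¹) (f := fun _ => (1 : ℝ))
          (fun y hy => mul_inv_cancel₀ (norm_ne_zero_iff.2 hy)) hx, Vale.Agent.P366.pd_const]
      rw [h3, pd_norm' hx] at h2
      field_simp at h2 ⊢
      linarith
    rw [e]
    unfold Rot
    rw [pd_mul' (Sm.coord i) hn hx, pd_mul' (Sm.coord i) hn hx, pd_coord', pd_coord', h1, h1]
    ring

theorem VN_rot (N : ℕ) (s : Fin n × Fin n) (f : QA n) (hf : f ∈ VN n N) : RA s f ∈ VN n N := by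
  have key : ∀ (l : List (Fin n)) (N : ℕ), l.length ≤ N → RA s ((l.map XA).prod) ∈ VN n N := by
    intro l
    induction l with
    | nil =>
      intro N _
      simp only [List.map_nil, List.prod_nil, Derivation.map_one_eq_zero]
      exact Submodule.zero_mem _
    | cons i l ih =>
      intro N hN
      obtain ⟨M, rfl⟩ : ∃ M, N = 1 + M := ⟨N - 1, by simp only [List.length_cons] at hN; omega⟩
      have hl : l.length ≤ M := by simp only [List.length_cons] at hN; omega
      rw [List.map_cons, List.prod_cons, Derivation.leibniz, smul_eq_mul, smul_eq_mul]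
      refine Submodule.add_mem _ (VN_mul (VN_XA i) (ih M hl)) ?_
      rw [mul_comm]
      refine VN_mul ?_ (VN_list hl)
      rw [RA_XA]
      exact Submodule.sub_mem _ (Submodule.smul_mem _ _ (VN_XA _)) (Submodule.smul_mem _ _ (VN_XA _))
  unfold VN at hf
  induction hf using Submodule.span_induction with
  | mem x h =>
    obtain ⟨w, rfl⟩ := h
    exact key w.1 N w.2
  | zero => rw [map_zero]; exact Submodule.zero_mem _
  | add x y _ _ hx hy => rw [map_add]; exact Submodule.add_mem _ hx hy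
  | smul c x _ hx => rw [Derivation.map_smul]; exact Submodule.smul_mem _ _ hx

end Vale.Agent.P366.H353.N
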