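import Vale.Agent.P366.H381.NE3b

/-! The first variation of the null shell inequality in the time function: the Euler equation. -/

open MeasureTheory Metric Filter Topology Set
open scoped ContDiff Matrix

noncomputable section
namespace Vale.Agent.P366.H353.N

open Vale.Agent.P366 (sphI sphM pd E)

variable {n : ℕ} [hn : Fact (3 ≤ n)]

/-- Nonnegative trace. -/
lemma Ten.tr_nonneg (D : Ten n) {x : E n} (hx : ‖x‖ = 1) : 0 ≤ tr (D.A x) := by
  have hA : ∀ v : Fin n → ℝ, 0 ≤ qf (D.A x) v v :=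
    D208.qf_nonneg (D208.sum_sq hx) (D.symA x) (D.tanA x (ne_zero_of_one hx)) (D.posA x hx)
  exact Finset.sum_nonneg fun i _ => by
    have := hA (Pi.single i 1)
    unfold qf at this
    simpa [Pi.single_apply] using this

lemma Ten.Phi_nonneg (D : Ten n) {x : E n} (hx : ‖x‖ = 1) : 0 ≤ D.Phi x := by
  obtain ⟨c, hc, hgap⟩ := qf_gap D
  have h1 := hgap x hx (D.b x) (D.tanb x (ne_zero_of_one hx))
  have h2 : 0 ≤ ∑ i, D.b x i ^ 2 := Finset.sum_nonneg fun i _ => sq_nonneg _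
  have h3 := mul_nonneg hc.le h2
  have h4 := D.tr_nonneg hx
  unfold Ten.Phi
  linarith

namespace Dat

variable (D : Dat n)

lemma Phi_nonneg {x : E n} (hx : ‖x‖ = 1) : 0 ≤ D.Phi x := by
  obtain ⟨T, hA, hb, -⟩ := toTen D
  have h := T.Phi_nonneg hx
  unfold Ten.Phi at h
  rw [hA, hb] at h
  exact h

variable {φ : E n → ℝ}

lemma sgm_cont : Continuous (NE.sgm : Matrix (Fin n) (Fin n) ℝ → ℝ) :=
  (continuous_id.matrix_adjugate.matrix_trace).sub continuous_id.matrix_det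

/-- the remainder in `Phi` -/
def rem (φ : E n → ℝ) (t : ℝ) (x : E n) : ℝ :=
  NE.sgm (D.Mt φ t x) * ∑ i, (∑ j, (D.Mt φ t x).adjugate i j * pd j φ x / (D.Mt φ t x).det) ^ 2 -
    ∑ i, ∑ j, ((D.Mt φ t x).adjugate i j - (D.Mt φ t x).det * (x i * x j)) *
      (∑ k, (D.Mt φ t x).adjugate i k * pd k φ x / (D.Mt φ t x).det) *
      (∑ k, (D.Mt φ t x).adjugate j k * pd k φ x / (D.Mt φ t x).det)

lemma pert_Phi {u : ℝ} (hU : ∀ x : E n, x ≠ 0 → D.U x = u) (hφ : Q φ) {t : ℝ}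
    (h : ∀ x : E n, ‖x‖ = 1 → ∀ v : Fin n → ℝ, ∑ i, x i * v i = 0 → v ≠ 0 →
      0 < qf (fun i j => hs D.H i j x) v v + (D.U x + t * φ x) * ∑ i, v i ^ 2)
    {x : E n} (hx : ‖x‖ = 1) :
    (D.pert hφ t h).Phi x = NE.sgm (D.Mt φ t x) + t ^ 2 * D.rem φ t x := by
  have h0 := ne_zero_of_one hx
  have hM := D.pert_M hφ h hx
  have hpd : ∀ j, pd j (D.pert hφ t h).U x = t * pd j φ x := by
    intro j
    have e : ∀ y : E n, y ≠ 0 → (D.pert hφ t h).U y = u + t * φ y := fun y hy => by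
      show D.U y + t * φ y = _
      rw [hU y hy]
    rw [pd_congr' e h0, pd_add' (Sm.const u) ((Sm.const t).mul hφ.sm) h0, pd_cmul' hφ.sm t h0,
      Vale.Agent.P366.pd_const, zero_add]
  have hdet : (D.Mt φ t x).det ≠ 0 := by
    rw [← hM]; exact (D.pert hφ t h).det_ne h0
  have hb : ∀ i, (D.pert hφ t h).b x i =
      t * ∑ j, (D.Mt φ t x).adjugate i j * pd j φ x / (D.Mt φ t x).det := by
    intro i
    unfold Dat.b
    rw [Finset.mul_sum]
    refine Finset.sum_congr rfl fun j _ => ?_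
    rw [hpd j, hx, hM, Matrix.inv_def, Ring.inverse_eq_inv', Matrix.smul_apply, smul_eq_mul]
    field_simp
  have hA : ∀ i j, (D.pert hφ t h).A x i j =
      (D.Mt φ t x).adjugate i j - (D.Mt φ t x).det * (x i * x j) := by
    intro i j
    unfold Dat.A Dat.dt
    rw [hM, hx]; ring
  have htr : tr ((D.pert hφ t h).A x) = NE.sgm (D.Mt φ t x) := by
    rw [(D.pert hφ t h).tr_A hx, hM]
  unfold Dat.Phi rem
  rw [htr]
  set s := NE.sgm (D.Mt φ t x)
  set β : Fin n → ℝ := fun i => ∑ j, (D.Mt φ t x).adjugate i j * pd j φ x / (D.Mt φ t x).det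
    with hβ
  have e1 : ∑ i, (D.pert hφ t h).b x i ^ 2 = t ^ 2 * ∑ i, β i ^ 2 := by
    rw [Finset.mul_sum]
    refine Finset.sum_congr rfl fun i _ => ?_
    rw [hb]; ring
  have e2 : qf ((D.pert hφ t h).A x) ((D.pert hφ t h).b x) ((D.pert hφ t h).b x) =
      t ^ 2 * ∑ i, ∑ j, ((D.Mt φ t x).adjugate i j - (D.Mt φ t x).det * (x i * x j)) *
        β i * β j := by
    unfold qf
    rw [Finset.mul_sum]
    refine Finset.sum_congr rfl fun i _ => ?_
    rw [Finset.mul_sum]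
    refine Finset.sum_congr rfl fun j _ => ?_
    rw [hA, hb, hb]; ring
  rw [e1, e2]
  ring

lemma det_Mt (hφ : Q φ) {t : ℝ}
    (h : ∀ x : E n, ‖x‖ = 1 → ∀ v : Fin n → ℝ, ∑ i, x i * v i = 0 → v ≠ 0 →
      0 < qf (fun i j => hs D.H i j x) v v + (D.U x + t * φ x) * ∑ i, v i ^ 2)
    {x : E n} (hx : ‖x‖ = 1) : (D.Mt φ t x).det ≠ 0 := by
  rw [← D.pert_M hφ h hx]
  exact (D.pert hφ t h).det_ne (ne_zero_of_one hx)

section cont

variable {e : ℝ} (he : ∀ t : ℝ, |t| ≤ e →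
    ∀ x : E n, ‖x‖ = 1 → ∀ v : Fin n → ℝ, ∑ i, x i * v i = 0 → v ≠ 0 →
      0 < qf (fun i j => hs D.H i j x) v v + (D.U x + t * φ x) * ∑ i, v i ^ 2)

lemma det_Mt' (hφ : Q φ) (he : ∀ t : ℝ, |t| ≤ e →
    ∀ x : E n, ‖x‖ = 1 → ∀ v : Fin n → ℝ, ∑ i, x i * v i = 0 → v ≠ 0 →
      0 < qf (fun i j => hs D.H i j x) v v + (D.U x + t * φ x) * ∑ i, v i ^ 2)
    {p : ℝ × E n} (hp : p ∈ Icc (-e) e ×ˢ sphere (0 : E n) 1) :
    (D.Mt φ p.1 p.2).det ≠ 0 :=
  D.det_Mt hφ (he p.1 (abs_le.2 hp.1)) (by simpa using hp.2)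

lemma cont_det (hφ : Q φ) {S : Set ℝ} :
    ContinuousOn (fun p : ℝ × E n => (D.Mt φ p.1 p.2).det) (S ×ˢ sphere (0 : E n) 1) :=
  (continuous_id.matrix_det (n := Fin n) (R := ℝ)).comp_continuousOn (D.Mt_cont hφ)

lemma cont_adj (hφ : Q φ) {S : Set ℝ} (i j : Fin n) :
    ContinuousOn (fun p : ℝ × E n => (D.Mt φ p.1 p.2).adjugate i j) (S ×ˢ sphere (0 : E n) 1) :=
  ((continuous_id.matrix_adjugate (n := Fin n) (R := ℝ)).matrix_elem i j).comp_continuousOn
    (D.Mt_cont hφ)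

lemma cont_sgm (hφ : Q φ) {S : Set ℝ} :
    ContinuousOn (fun p : ℝ × E n => NE.sgm (D.Mt φ p.1 p.2)) (S ×ˢ sphere (0 : E n) 1) :=
  sgm_cont.comp_continuousOn (D.Mt_cont hφ)

lemma cont_kpm (hφ : Q φ) (he : ∀ t : ℝ, |t| ≤ e →
    ∀ x : E n, ‖x‖ = 1 → ∀ v : Fin n → ℝ, ∑ i, x i * v i = 0 → v ≠ 0 →
      0 < qf (fun i j => hs D.H i j x) v v + (D.U x + t * φ x) * ∑ i, v i ^ 2) :
    ContinuousOn (fun p : ℝ × E n => NE.kpm (D.Mt φ p.1 p.2))
      (Icc (-e) e ×ˢ sphere (0 : E n) 1) := by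
  unfold NE.kpm
  refine ContinuousOn.div ?_ (D.cont_det hφ) fun p hp => D.det_Mt' hφ he hp
  refine (((D.cont_sgm hφ).pow 2).sub ?_).add ((D.cont_det hφ).pow 2)
  exact (((continuous_id.matrix_adjugate (n := Fin n) (R := ℝ)).mul
    continuous_id.matrix_adjugate).matrix_trace).comp_continuousOn (D.Mt_cont hφ)

lemma cont_pd (hφ : Q φ) {S : Set ℝ} (j : Fin n) :
    ContinuousOn (fun p : ℝ × E n => pd j φ p.2) (S ×ˢ sphere (0 : E n) 1) :=
  (hφ.sm.pd j).contOn.comp continuous_snd.continuousOn fun p hp => hp.2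

lemma cont_rem (hφ : Q φ) (he : ∀ t : ℝ, |t| ≤ e →
    ∀ x : E n, ‖x‖ = 1 → ∀ v : Fin n → ℝ, ∑ i, x i * v i = 0 → v ≠ 0 →
      0 < qf (fun i j => hs D.H i j x) v v + (D.U x + t * φ x) * ∑ i, v i ^ 2) :
    ContinuousOn (fun p : ℝ × E n => D.rem φ p.1 p.2) (Icc (-e) e ×ˢ sphere (0 : E n) 1) := by
  have hc : ∀ k : Fin n, ContinuousOn (fun p : ℝ × E n => p.2 k)
      (Icc (-e) e ×ˢ sphere (0 : E n) 1) :=
    fun k => ((EuclideanSpace.proj (𝕜 := ℝ) k).continuous.comp continuous_snd).continuousOn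
  have hβ : ∀ i : Fin n, ContinuousOn (fun p : ℝ × E n =>
      ∑ j, (D.Mt φ p.1 p.2).adjugate i j * pd j φ p.2 / (D.Mt φ p.1 p.2).det)
      (Icc (-e) e ×ˢ sphere (0 : E n) 1) := fun i =>
    continuousOn_finsetSum _ fun j _ => ((D.cont_adj hφ i j).mul (cont_pd hφ j)).div
      (D.cont_det hφ) fun p hp => D.det_Mt' hφ he hp
  unfold rem
  refine ((D.cont_sgm hφ).mul (continuousOn_finsetSum _ fun i _ => (hβ i).pow 2)).sub ?_
  refine continuousOn_finsetSum _ fun i _ => continuousOn_finsetSum _ fun j _ => ?_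
  exact ((((D.cont_adj hφ i j).sub ((D.cont_det hφ).mul ((hc i).mul (hc j)))).mul (hβ i)).mul
    (hβ j))

end cont

lemma Mt_zero {x : E n} : D.Mt φ 0 x = D.M x := by
  ext i j
  simp [Mt, NE.Ns]

/-- **The Euler equation of the null shell inequality.** -/
theorem first_var (heq : SI D.Phi ^ (n - 1) = ((n : ℝ) - 1) ^ (n - 1) * om n * SI D.dt ^ (n - 2)) :
    ∀ x : E n, ‖x‖ = 1 → ((n : ℝ) - 1) * SI D.Phi ^ (n - 2) * D.kD x =
      ((n : ℝ) - 1) ^ (n - 1) * om n * ((n : ℝ) - 2) * SI D.dt ^ (n - 3) * tr (D.A x) := by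
  have n3 := hn.out
  obtain ⟨u, hU⟩ := main_eq_U D heq
  have key : ∀ φ : E n → ℝ, Q φ → ((n : ℝ) - 1) * SI D.Phi ^ (n - 2) * SI (fun x => φ x * D.kD x) =
      ((n : ℝ) - 1) ^ (n - 1) * om n * ((n : ℝ) - 2) * SI D.dt ^ (n - 3) *
        SI (fun x => φ x * tr (D.A x)) := by
    intro φ hφ
    obtain ⟨e, he0, he⟩ := D.exists_pert hφ
    obtain ⟨K, hK⟩ := H296.N.unif_bound (a := -e) (b := e) (D.cont_rem hφ he)
    set S1 : ℝ → ℝ := fun t => SI (fun x => NE.sgm (D.Mt φ t x)) with hS1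
    set V : ℝ → ℝ := fun t => SI (fun x => (D.Mt φ t x).det) with hV
    have h0m : (0 : ℝ) ∈ Ioo (-e) e := ⟨by linarith, he0⟩
    have hdt : ∀ t, ∀ x : E n, ‖x‖ = 1 →
        HasDerivAt (fun t => (D.Mt φ t x).det) (NE.sgm (D.Mt φ t x) * φ x) t := by
      intro t x hx
      have h1 := NE.hasDerivAt_det hx (D.M_mulVec (ne_zero_of_one hx)) (t * φ x)
      have h2 : HasDerivAt (fun t : ℝ => t * φ x) (φ x) t := by
        simpa using (hasDerivAt_id t).mul_const (φ x)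
      exact HasDerivAt.comp t h1 h2
    have hst : ∀ t ∈ Ioo (-e) e, ∀ x : E n, ‖x‖ = 1 →
        HasDerivAt (fun t => NE.sgm (D.Mt φ t x)) (NE.kpm (D.Mt φ t x) * φ x) t := by
      intro t ht x hx
      have hd : (NE.Ns (D.M x) x (t * φ x)).det ≠ 0 :=
        D.det_Mt hφ (he t (abs_le.2 ⟨ht.1.le, ht.2.le⟩)) hx
      have h1 := NE.hasDerivAt_sgm hx (D.M_mulVec (ne_zero_of_one hx)) hd
      have h2 : HasDerivAt (fun t : ℝ => t * φ x) (φ x) t := by
        simpa using (hasDerivAt_id t).mul_const (φ x)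
      exact HasDerivAt.comp t h1 h2
    have hcφ : ContinuousOn (fun p : ℝ × E n => φ p.2) (Icc (-e) e ×ˢ sphere (0 : E n) 1) :=
      hφ.sm.contOn.comp continuous_snd.continuousOn fun p hp => hp.2
    have dV : HasDerivAt V (SI (fun x => NE.sgm (D.Mt φ 0 x) * φ x)) 0 :=
      H296.N.SI_hasDerivAt (g := fun t x => (D.Mt φ t x).det)
        (g' := fun t x => NE.sgm (D.Mt φ t x) * φ x) (D.cont_det hφ)
        ((D.cont_sgm hφ).mul hcφ) (fun t _ x hx => hdt t x hx) h0m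
    have dS : HasDerivAt S1 (SI (fun x => NE.kpm (D.Mt φ 0 x) * φ x)) 0 :=
      H296.N.SI_hasDerivAt (g := fun t x => NE.sgm (D.Mt φ t x))
        (g' := fun t x => NE.kpm (D.Mt φ t x) * φ x) (D.cont_sgm hφ)
        ((D.cont_kpm hφ he).mul hcφ) hst h0m
    have eS : SI (fun x => NE.kpm (D.Mt φ 0 x) * φ x) = SI (fun x => φ x * D.kD x) :=
      SI_congr fun x hx => by rw [D.Mt_zero, D.kD_eq hx, mul_comm]
    have eV : SI (fun x => NE.sgm (D.Mt φ 0 x) * φ x) = SI (fun x => φ x * tr (D.A x)) :=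
      SI_congr fun x hx => by rw [D.Mt_zero, D.tr_A hx, mul_comm]
    have hV0 : V 0 = SI D.dt := SI_congr fun x hx => by rw [D.Mt_zero]; rfl
    have hS0 : S1 0 = SI D.Phi := SI_congr fun x hx => by
      rw [D.Mt_zero, ← D.tr_A hx]
      have hb : D.b x = 0 := by
        funext i
        have : ∀ j, pd j D.U x = 0 := fun j => by
          rw [pd_congr' hU (ne_zero_of_one hx), Vale.Agent.P366.pd_const]
        simp [Dat.b, this]
      unfold Dat.Phi
      rw [hb]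
      simp [qf]
    rw [eS] at dS
    rw [eV] at dV
    set K' : ℝ := om n * K with hK'
    set F : ℝ → ℝ := fun t => (S1 t + K' * t ^ 2) ^ (n - 1) -
      ((n : ℝ) - 1) ^ (n - 1) * om n * V t ^ (n - 2) with hF
    have hF0 : F 0 = 0 := by
      simp only [hF]
      rw [hS0, hV0, ← heq]
      ring
    have hFn : ∀ t ∈ Ioo (-e) e, 0 ≤ F t := by
      intro t ht
      have ht' : |t| ≤ e := abs_le.2 ⟨ht.1.le, ht.2.le⟩
      have h1 := main (D.pert hφ t (he t ht'))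
      have e1 : SI (D.pert hφ t (he t ht')).dt = V t :=
        SI_congr fun x hx => by
          show ((D.pert hφ t (he t ht')).M x).det = _
          rw [D.pert_M hφ (he t ht') hx]
      have h2 : 0 ≤ SI (D.pert hφ t (he t ht')).Phi :=
        SI_nonneg fun x hx => (D.pert hφ t (he t ht')).Phi_nonneg hx
      have h3 : SI (D.pert hφ t (he t ht')).Phi ≤ S1 t + K' * t ^ 2 := by
        have cs : ContinuousOn (fun x : E n => NE.sgm (D.Mt φ t x)) (sphere (0 : E n) 1) :=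
          H296.N.slice_cont (g := fun t x => NE.sgm (D.Mt φ t x)) (a := -e) (b := e)
            (D.cont_sgm hφ) ⟨ht.1.le, ht.2.le⟩
        have cr : ContinuousOn (fun x : E n => D.rem φ t x) (sphere (0 : E n) 1) :=
          H296.N.slice_cont (g := fun t x => D.rem φ t x) (a := -e) (b := e)
            (D.cont_rem hφ he) ⟨ht.1.le, ht.2.le⟩
        have e2 : SI (D.pert hφ t (he t ht')).Phi =
            SI (fun x => NE.sgm (D.Mt φ t x) + t ^ 2 * D.rem φ t x) :=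
          SI_congr fun x hx => D.pert_Phi hU hφ (he t ht') hx
        rw [e2, SI_add (h := fun x => t ^ 2 * D.rem φ t x) cs (continuousOn_const.mul cr), SI_cmul]
        have h4 : SI (fun x => D.rem φ t x) ≤ K' := by
          rw [hK', ← SI_const]
          refine SI_mono cr continuousOn_const fun x hx => ?_
          have := hK t ⟨ht.1.le, ht.2.le⟩ x (by simpa using hx)
          exact (le_abs_self _).trans this
        have h5 := mul_le_mul_of_nonneg_left h4 (sq_nonneg t)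
        show S1 t + _ ≤ _
        linarith
      have h6 := pow_le_pow_left₀ h2 h3 (n - 1)
      rw [e1] at h1
      simp only [hF]
      linarith
    have hmin : IsLocalMin F 0 := by
      filter_upwards [isOpen_Ioo.mem_nhds h0m] with t ht
      rw [hF0]
      exact hFn t ht
    have dF : HasDerivAt F (((n : ℝ) - 1) * SI D.Phi ^ (n - 2) * SI (fun x => φ x * D.kD x) -
        ((n : ℝ) - 1) ^ (n - 1) * om n * (((n : ℝ) - 2) * SI D.dt ^ (n - 3) *
          SI (fun x => φ x * tr (D.A x)))) 0 := by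
      have h1 : HasDerivAt (fun t : ℝ => K' * t ^ 2) 0 0 := by
        have := ((hasDerivAt_id (0 : ℝ)).pow 2).const_mul K'
        simpa using this
      have h2 := (dS.add h1).fun_pow (n - 1)
      have h3 := ((dV.fun_pow (n - 2)).const_mul (((n : ℝ) - 1) ^ (n - 1) * om n))
      have h4 := h2.sub h3
      have c1 : ((n - 1 : ℕ) : ℝ) = n - 1 := by rw [Nat.cast_sub (by omega)]; simp
      have c2 : ((n - 2 : ℕ) : ℝ) = n - 2 := by rw [Nat.cast_sub (by omega)]; simp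
      have c3 : n - 1 - 1 = n - 2 := by omega
      have c4 : n - 2 - 1 = n - 3 := by omega
      rw [c1, c2, c3, c4] at h4
      have e5 : (S1 + fun t : ℝ => K' * t ^ 2) 0 = SI D.Phi := by
        simp [hS0]
      rw [e5, hV0, add_zero] at h4
      exact h4
    have h7 := hmin.hasDerivAt_eq_zero dF
    linarith
  set X : E n → ℝ := fun x => ((n : ℝ) - 1) * SI D.Phi ^ (n - 2) * D.kD x -
      ((n : ℝ) - 1) ^ (n - 1) * om n * ((n : ℝ) - 2) * SI D.dt ^ (n - 3) * tr (D.A x) with hX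
  have hXQ : Q X := ⟨((Sm.const _).mul D.sm_kD).sub ((Sm.const _).mul D.sm_tr),
    (D.hom_kD.cmul _).sub (D.hom_tr.cmul _)⟩
  have h1 := key X hXQ
  have cX := hXQ.sm.contOn
  have ck := D.sm_kD.contOn
  have ct := D.sm_tr.contOn
  have h2 : SI (fun x => X x * X x) = 0 := by
    have e : (fun x => X x * X x) = fun x =>
        ((n : ℝ) - 1) * SI D.Phi ^ (n - 2) * (X x * D.kD x) -
        ((n : ℝ) - 1) ^ (n - 1) * om n * ((n : ℝ) - 2) * SI D.dt ^ (n - 3) *
          (X x * tr (D.A x)) := by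
      funext x
      simp only [hX]
      ring
    rw [e, SI_sub (f := fun x => ((n : ℝ) - 1) * SI D.Phi ^ (n - 2) * (X x * D.kD x))
      (h := fun x => ((n : ℝ) - 1) ^ (n - 1) * om n * ((n : ℝ) - 2) * SI D.dt ^ (n - 3) *
          (X x * tr (D.A x))) (continuousOn_const.mul (cX.mul ck))
      (continuousOn_const.mul (cX.mul ct)), SI_cmul, SI_cmul, h1, sub_self]
  intro x hx
  have h3 := SI_eq_zero (f := fun x => X x * X x) (cX.mul cX) (fun y _ => mul_self_nonneg _) h2 hx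
  have h4 : X x = 0 := mul_self_eq_zero.1 h3
  simp only [hX] at h4
  linarith

end Dat

end Vale.Agent.P366.H353.N
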