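import Vale.Agent.P366.H353.N.Basic

/-! [H0], part 1: calculus of matrix fields (determinant, adjugate, inverse). -/

open MeasureTheory Metric Filter Topology Set
open scoped ContDiff

noncomputable section
namespace Vale.Agent.P366.H353.N.MC

open Vale.Agent.P366 (sphI sphM pd E)

variable {n : ℕ}

/-- Jacobi's formula for curves. -/
theorem hasDerivAt_det {N : ℝ → Matrix (Fin n) (Fin n) ℝ} {N' : Matrix (Fin n) (Fin n) ℝ} {t : ℝ}
    (hN : ∀ i j, HasDerivAt (fun s => N s i j) (N' i j) t) :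
    HasDerivAt (fun t => (N t).det) ((N t).adjugate * N').trace t := by
  have key : ∀ (X Y : Matrix (Fin n) (Fin n) ℝ), ∑ σ : Equiv.Perm (Fin n),
      (Equiv.Perm.sign σ : ℤ) • ∑ i, (∏ j ∈ Finset.univ.erase i, X (σ j) j) * Y (σ i) i =
      (X.adjugate * Y).trace := by
    intro X Y
    simp only [Finset.smul_sum]
    rw [Finset.sum_comm]
    rw [Matrix.trace]
    refine Finset.sum_congr rfl fun i _ => ?_
    have h1 : (X.adjugate * Y).diag i = (X.updateCol i (fun j => Y j i)).det := by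
      rw [← Matrix.cramer_apply, Matrix.cramer_eq_adjugate_mulVec]
      simp only [Matrix.diag, Matrix.mul_apply, Matrix.mulVec, dotProduct]
    rw [h1, Matrix.det_apply]
    refine Finset.sum_congr rfl fun σ _ => ?_
    have : ∏ k, (X.updateCol i (fun j => Y j i)) (σ k) k =
        (∏ j ∈ Finset.univ.erase i, X (σ j) j) * Y (σ i) i := by
      rw [← Finset.prod_erase_mul Finset.univ _ (Finset.mem_univ i)]
      congr 1
      · refine Finset.prod_congr rfl fun j hj => ?_
        rw [Matrix.updateCol_ne (Finset.ne_of_mem_erase hj)]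
      · simp
    rw [this]
    rfl
  rw [← key]
  have h1 : ∀ t, (N t).det =
      ∑ σ : Equiv.Perm (Fin n), (Equiv.Perm.sign σ : ℤ) • ∏ i, N t (σ i) i := by
    intro t
    rw [Matrix.det_apply]
    rfl
  simp only [h1]
  refine HasDerivAt.fun_sum (fun σ _ => ?_)
  have h2 := HasDerivAt.fun_finsetProd (u := Finset.univ) (x := t)
    (f := fun i t => N t (σ i) i) (f' := fun i => N' (σ i) i) (fun i _ => hN (σ i) i)
  simp only [smul_eq_mul] at h2
  exact h2.const_smul ((Equiv.Perm.sign σ : ℤ))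

lemma sm_prod {ι : Type*} (s : Finset ι) {f : ι → E n → ℝ} (hf : ∀ i, Sm (f i)) :
    Sm fun x => ∏ i ∈ s, f i x := fun x hx => contDiffAt_prod fun i _ => hf i x hx

lemma sm_det {M : E n → Matrix (Fin n) (Fin n) ℝ} (h : ∀ i j, Sm fun x => M x i j) :
    Sm fun x => (M x).det := by
  have e : (fun x => (M x).det) = fun x => ∑ σ : Equiv.Perm (Fin n),
      ((Equiv.Perm.sign σ : ℤ) : ℝ) * ∏ i, M x (σ i) i := by
    funext x
    rw [Matrix.det_apply']
  rw [e]
  exact Sm.sum _ fun σ => (Sm.const _).mul (sm_prod _ fun i => h _ _)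

lemma sm_adj {M : E n → Matrix (Fin n) (Fin n) ℝ} (h : ∀ i j, Sm fun x => M x i j) (i j : Fin n) :
    Sm fun x => (M x).adjugate i j := by
  simp only [Matrix.adjugate_apply]
  refine sm_det fun k l => ?_
  by_cases hk : k = j
  · subst hk
    simp only [Matrix.updateRow_self]
    exact Sm.const _
  · simp only [Matrix.updateRow_ne hk]
    exact h k l

lemma inv_eq (M : Matrix (Fin n) (Fin n) ℝ) (i j : Fin n) :
    M⁻¹ i j = (M.det)⁻¹ * M.adjugate i j := by
  rw [Matrix.inv_def, Ring.inverse_eq_inv', Matrix.smul_apply, smul_eq_mul]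

lemma sm_inv {M : E n → Matrix (Fin n) (Fin n) ℝ} (h : ∀ i j, Sm fun x => M x i j)
    (hd : ∀ x, x ≠ 0 → (M x).det ≠ 0) (i j : Fin n) : Sm fun x => (M x)⁻¹ i j := by
  simp only [inv_eq]
  exact ((sm_det h).inv hd).mul (sm_adj h i j)

/-- partial derivatives as derivatives along lines -/
lemma pd_line {f : E n → ℝ} (hf : Sm f) {x : E n} (hx : x ≠ 0) (i : Fin n) :
    HasDerivAt (fun t : ℝ => f (x + t • EuclideanSpace.single i (1 : ℝ))) (pd i f x) 0 := by
  have h1 : HasDerivAt (fun t : ℝ => x + t • EuclideanSpace.single i (1 : ℝ))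
      (EuclideanSpace.single i (1 : ℝ)) 0 := by
    simpa using ((hasDerivAt_id (0 : ℝ)).smul_const (EuclideanSpace.single i (1 : ℝ))).const_add x
  have h2 : HasFDerivAt f (fderiv ℝ f x) (x + (0 : ℝ) • EuclideanSpace.single i (1 : ℝ)) := by
    rw [zero_smul, add_zero]; exact (hf.diff hx).hasFDerivAt
  exact h2.comp_hasDerivAt 0 h1

/-- Jacobi's formula -/
lemma pd_det {M : E n → Matrix (Fin n) (Fin n) ℝ} (h : ∀ i j, Sm fun x => M x i j) {x : E n}
    (hx : x ≠ 0) (i : Fin n) :
    pd i (fun y => (M y).det) x =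
      ∑ a, ∑ b, (M x).adjugate a b * pd i (fun y => M y b a) x := by
  have h1 := hasDerivAt_det (N := fun t : ℝ => M (x + t • EuclideanSpace.single i (1 : ℝ)))
    (N' := Matrix.of fun a b => pd i (fun y => M y a b) x) (t := 0)
    (fun a b => pd_line (h a b) hx i)
  have h2 := (pd_line (sm_det h) hx i).unique h1
  rw [h2, zero_smul, add_zero]
  rfl

/-- The derivative of the inverse. -/
lemma pd_inv {M : E n → Matrix (Fin n) (Fin n) ℝ} (h : ∀ i j, Sm fun x => M x i j)
    (hd : ∀ x, x ≠ 0 → (M x).det ≠ 0) {x : E n} (hx : x ≠ 0) (i a b : Fin n) :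
    pd i (fun y => (M y)⁻¹ a b) x =
      - ∑ k, ∑ l, (M x)⁻¹ a k * pd i (fun y => M y k l) x * (M x)⁻¹ l b := by
  have hS := sm_inv h hd
  have e1 : ∀ k, ∑ l, (pd i (fun y => M y k l) x * (M x)⁻¹ l b +
      M x k l * pd i (fun y => (M y)⁻¹ l b) x) = 0 := by
    intro k
    have e2 : pd i (fun y => ∑ l, M y k l * (M y)⁻¹ l b) x = 0 := by
      rw [pd_congr' (h := fun y => ∑ l, M y k l * (M y)⁻¹ l b)
        (f := fun _ => (1 : Matrix (Fin n) (Fin n) ℝ) k b) (fun y hy => ?_) hx,
        Vale.Agent.P366.pd_const]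
      rw [← Matrix.mul_apply, Matrix.mul_nonsing_inv _ (isUnit_iff_ne_zero.2 (hd y hy))]
    rw [pd_sum' _ (fun l => (h k l).mul (hS l b)) hx] at e2
    rw [← e2]
    refine Finset.sum_congr rfl fun l _ => ?_
    rw [pd_mul' (h k l) (hS l b) hx]
    ring
  have e3 : ∑ k, (M x)⁻¹ a k * ∑ l, M x k l * pd i (fun y => (M y)⁻¹ l b) x =
      pd i (fun y => (M y)⁻¹ a b) x := by
    have e4 : ∀ l, ∑ k, (M x)⁻¹ a k * M x k l = (1 : Matrix (Fin n) (Fin n) ℝ) a l := by
      intro l
      rw [← Matrix.mul_apply, Matrix.nonsing_inv_mul _ (isUnit_iff_ne_zero.2 (hd x hx))]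
    simp only [Finset.mul_sum, ← mul_assoc]
    rw [Finset.sum_comm]
    simp only [← Finset.sum_mul, e4, Matrix.one_apply, ite_mul, one_mul, zero_mul,
      Finset.sum_ite_eq, Finset.mem_univ, if_true]
  rw [← e3, ← Finset.sum_neg_distrib]
  refine Finset.sum_congr rfl fun k _ => ?_
  have := e1 k
  rw [Finset.sum_add_distrib] at this
  rw [eq_neg_of_add_eq_zero_right this, mul_neg, Finset.mul_sum]
  simp only [mul_assoc]

end Vale.Agent.P366.H353.N.MC
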