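import Vale.Agent.P366.H381.NA1a

/-! [A1], second part: density of the polynomials, vanishing rotational derivatives. -/

open MeasureTheory Metric Filter Topology Set
open scoped ContDiff

noncomputable section
namespace Vale.Agent.P366.H353.N

open Vale.Agent.P366 (sphI sphM pd E)

variable {n : ℕ}

/-- The coordinate functions on the sphere. -/
def crd (i : Fin n) : C(sphere (0 : E n) 1, ℝ) :=
  ⟨fun θ => (θ : E n) i, by
    have h : Continuous fun x : E n => x i := (contDiff_piLp_apply (p := 2) (i := i) (n := 0)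
      (𝕜 := ℝ)).continuous
    exact h.comp continuous_subtype_val⟩

lemma adj_VN (g : C(sphere (0 : E n) 1, ℝ)) (hg : g ∈ Algebra.adjoin ℝ (range (crd (n := n)))) :
    ∃ N, ∃ v ∈ VN n N, ∀ θ : sphere (0 : E n) 1, g θ = (v : E n → ℝ) θ := by
  induction hg using Algebra.adjoin_induction with
  | mem g h =>
    obtain ⟨i, rfl⟩ := h
    refine ⟨1, XA i, VN_XA i, fun θ => ?_⟩
    rw [XA_apply]
    have : ‖(θ : E n)‖ = 1 := by simp
    rw [this, div_one]
    rfl
  | algebraMap r =>
    refine ⟨0, r • 1, Submodule.smul_mem _ _ ?_, fun θ => ?_⟩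
    · have := VN_list (n := n) (l := []) (N := 0) le_rfl
      simpa using this
    · change r = r • (1 : ℝ)
      simp
  | add f g _ _ hf hg =>
    obtain ⟨N, v, hv, h1⟩ := hf
    obtain ⟨M, w, hw, h2⟩ := hg
    refine ⟨max N M, v + w, Submodule.add_mem _ (VN_mono (le_max_left _ _) hv)
      (VN_mono (le_max_right _ _) hw), fun θ => ?_⟩
    rw [ContinuousMap.add_apply, h1, h2]
    rfl
  | mul f g _ _ hf hg =>
    obtain ⟨N, v, hv, h1⟩ := hf
    obtain ⟨M, w, hw, h2⟩ := hg
    refine ⟨N + M, v * w, VN_mul hv hw, fun θ => ?_⟩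
    rw [ContinuousMap.mul_apply, h1, h2]
    rfl

theorem VN_dense {f : E n → ℝ} (hf : ContinuousOn f (sphere 0 1)) {ε : ℝ} (hε : 0 < ε) :
    ∃ N, ∃ v ∈ VN n N, ∀ x : E n, ‖x‖ = 1 → |f x - (v : E n → ℝ) x| ≤ ε := by
  have : CompactSpace (sphere (0 : E n) 1) := isCompact_iff_compactSpace.1 (isCompact_sphere _ _)
  let F : C(sphere (0 : E n) 1, ℝ) :=
    ⟨fun θ => f θ, continuousOn_iff_continuous_domRestrict.1 hf⟩
  have sep : (Algebra.adjoin ℝ (range (crd (n := n)))).SeparatesPoints := by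
    intro θ η hne
    obtain ⟨i, hi⟩ : ∃ i, (θ : E n) i ≠ (η : E n) i := by
      by_contra hcon
      push Not at hcon
      exact hne (Subtype.ext (PiLp.ext hcon))
    exact ⟨crd i, ⟨crd i, Algebra.subset_adjoin ⟨i, rfl⟩, rfl⟩, hi⟩
  obtain ⟨⟨g, hg⟩, hgF⟩ := ContinuousMap.exists_mem_subalgebra_near_continuousMap_of_separatesPoints
    _ sep F ε hε
  obtain ⟨N, v, hv, h1⟩ := adj_VN g hg
  refine ⟨N, v, hv, fun x hx => ?_⟩
  have h2 := (ContinuousMap.norm_coe_le_norm (g - F) ⟨x, by simpa using hx⟩).trans hgF.le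
  rw [ContinuousMap.sub_apply, h1, Real.norm_eq_abs, abs_sub_comm] at h2
  exact h2

/-- a nonnegative function, continuous on the sphere, with vanishing integral vanishes -/
lemma SI_eq_zero [Fact (3 ≤ n)] {f : E n → ℝ} (hf : ContinuousOn f (sphere 0 1))
    (h0 : ∀ x, ‖x‖ = 1 → 0 ≤ f x) (hI : SI f = 0) {x : E n} (hx : ‖x‖ = 1) : f x = 0 := by
  have hc : Continuous fun θ : sphere (0 : E n) 1 => f (θ : E n) :=
    continuousOn_iff_continuous_domRestrict.1 hf
  have hnn : 0 ≤ fun θ : sphere (0 : E n) 1 => f (θ : E n) := fun θ => h0 _ (by simp)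
  have h2 := (integral_eq_zero_iff_of_nonneg hnn (int_sph hf)).1 hI
  have hop : (sphM n).IsOpenPosMeasure := by
    unfold Vale.Agent.P366.sphM
    infer_instance
  have h3 : (fun θ : sphere (0 : E n) 1 => f (θ : E n)) = fun _ => 0 :=
    (hc.ae_eq_iff_eq (sphM n) continuous_const).1 h2
  exact congrFun h3 ⟨x, by simpa using hx⟩

/-- A smooth function on the sphere with vanishing rotational derivatives is constant. -/
theorem rot_const [Fact (3 ≤ n)] {r : E n → ℝ} (hr : Q r)
    (h : ∀ a b, SI (fun x => Rot a b r x ^ 2) = 0) :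
    ∃ c : ℝ, ∀ x : E n, ‖x‖ = 1 → r x = c := by
  have h1 : ∀ a b, ∀ x : E n, ‖x‖ = 1 → Rot a b r x = 0 := by
    intro a b x hx
    have h2 := SI_eq_zero (f := fun x => Rot a b r x ^ 2) ((Rot_sm hr.sm a b).contOn.pow 2)
      (fun x _ => sq_nonneg _) (h a b) hx
    exact pow_eq_zero_iff (two_ne_zero) |>.1 h2
  have h2 : ∀ b, ∀ x : E n, ‖x‖ = 1 → pd b r x = 0 := by
    intro b x hx
    have hx0 := ne_zero_of_one hx
    have e1 : ∑ a, x a * pd a r x = 0 := by
      rw [hr.hom.euler hr.sm hx0]; simp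
    have e2 : ∑ a, x a * Rot a b r x = 0 :=
      Finset.sum_eq_zero fun a _ => by rw [h1 a b x hx, mul_zero]
    have e3 : ∑ a, x a * Rot a b r x =
        (∑ a, x a ^ 2) * pd b r x - x b * ∑ a, x a * pd a r x := by
      rw [Finset.sum_mul, Finset.mul_sum, ← Finset.sum_sub_distrib]
      refine Finset.sum_congr rfl fun a _ => ?_
      unfold Rot
      ring
    have e4 : ∑ a, x a ^ 2 = 1 := by
      have := EuclideanSpace.real_norm_sq_eq x
      rw [hx] at this
      rw [← this]; norm_num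
    rw [e3, e4, e1] at e2
    linarith
  have h3 : ∀ b, ∀ x : E n, x ≠ 0 → pd b r x = 0 := by
    intro b x hx
    have hn := norm_ne_zero_iff.2 hx
    have e := (hr.hom.pd hr.sm b) (‖x‖⁻¹ • x) (by
      simp [hx]) ‖x‖ (norm_pos_iff.2 hx)
    rw [smul_inv_smul₀ hn, h2 b (‖x‖⁻¹ • x) (by
      rw [norm_smul, norm_inv, norm_norm, inv_mul_cancel₀ hn]), mul_zero] at e
    exact e
  have hopen : IsOpen {x : E n | x ≠ 0} := isOpen_ne
  have hconn : IsPreconnected {x : E n | x ≠ 0} := by
    have hrk : 1 < Module.rank ℝ (E n) := by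
      rw [rank_eq_card_basis (EuclideanSpace.basisFun (Fin n) ℝ).toBasis]
      have := Fact.out (p := 3 ≤ n)
      simp only [Fintype.card_fin]
      exact_mod_cast (by omega : 1 < n)
    exact (isConnected_compl_singleton_of_one_lt_rank hrk 0).isPreconnected
  obtain ⟨c, hc⟩ := hopen.exists_is_const_of_fderiv_eq_zero hconn
    (fun x hx => (hr.sm.diff hx).differentiableWithinAt) (f := r) (fun x hx => by
      ext v
      rw [Vale.Agent.P366.fderiv_eq_sum_pd]
      simp only [Pi.zero_apply, _root_.zero_apply]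
      exact Finset.sum_eq_zero fun i _ => by rw [h3 i x hx, mul_zero])
  exact ⟨c, fun x hx => hc x (ne_zero_of_one hx)⟩

end Vale.Agent.P366.H353.N
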