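import Vale.Agent.P366.H381.NA2a

/-! [A2]: the Galerkin sequence and its uniform bounds. -/

noncomputable section
namespace Vale.Agent.P366.H353.N

namespace Rsys

variable {𝒜 ι : Type*} [CommRing 𝒜] [Algebra ℝ 𝒜] [Fintype ι] (S : Rsys 𝒜 ι)

/-- The `𝒜`-span of the constant sequence and the derivatives of order `1, …, m` of `u`. -/
def Msp (u : ℕ → 𝒜) (m : ℕ) : Submodule 𝒜 (ℕ → 𝒜) :=
  Submodule.span 𝒜 ({1} ∪ {x | ∃ w : List ι, 1 ≤ w.length ∧ w.length ≤ m ∧
    x = fun N => S.Rw w (u N)})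

theorem Msp_mono (u : ℕ → 𝒜) {m m' : ℕ} (h : m ≤ m') : S.Msp u m ≤ S.Msp u m' := by
  refine Submodule.span_mono (Set.union_subset_union_right _ ?_)
  rintro x ⟨w, h1, h2, rfl⟩
  exact ⟨w, h1, h2.trans h, rfl⟩

theorem Msp_const (u : ℕ → 𝒜) (m : ℕ) (b : 𝒜) : (fun _ => b) ∈ S.Msp u m := by
  have h : (1 : ℕ → 𝒜) ∈ S.Msp u m := Submodule.subset_span (Or.inl rfl)
  have := Submodule.smul_mem _ b h
  convert this using 1
  funext N
  simp

theorem Msp_Rw (u : ℕ → 𝒜) {m : ℕ} (w : List ι) (h1 : 1 ≤ w.length) (h2 : w.length ≤ m) :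
    (fun N => S.Rw w (u N)) ∈ S.Msp u m :=
  Submodule.subset_span (Or.inr ⟨w, h1, h2, rfl⟩)

theorem Msp_mul (u : ℕ → 𝒜) {m : ℕ} {x : ℕ → 𝒜} (b : 𝒜) (hx : x ∈ S.Msp u m) :
    (fun N => b * x N) ∈ S.Msp u m := Submodule.smul_mem _ b hx

theorem Msp_add (u : ℕ → 𝒜) {m : ℕ} {x y : ℕ → 𝒜} (hx : x ∈ S.Msp u m) (hy : y ∈ S.Msp u m) :
    (fun N => x N + y N) ∈ S.Msp u m := Submodule.add_mem _ hx hy

theorem Msp_sub (u : ℕ → 𝒜) {m : ℕ} {x y : ℕ → 𝒜} (hx : x ∈ S.Msp u m) (hy : y ∈ S.Msp u m) :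
    (fun N => x N - y N) ∈ S.Msp u m := Submodule.sub_mem _ hx hy

theorem Msp_sum (u : ℕ → 𝒜) {m : ℕ} {κ : Type*} (T : Finset κ) {x : κ → ℕ → 𝒜}
    (hx : ∀ k ∈ T, x k ∈ S.Msp u m) : (fun N => ∑ k ∈ T, x k N) ∈ S.Msp u m := by
  have := Submodule.sum_mem (S.Msp u m) hx
  convert this using 1
  funext N
  simp [Finset.sum_apply]

theorem Msp_R (u : ℕ → 𝒜) {m : ℕ} (s : ι) {x : ℕ → 𝒜} (hx : x ∈ S.Msp u m) :
    (fun N => S.R s (x N)) ∈ S.Msp u (m + 1) := by
  induction hx using Submodule.span_induction with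
  | mem x h =>
    rcases h with h | ⟨w, h1, h2, rfl⟩
    · rw [Set.mem_singleton_iff] at h
      subst h
      have : (fun N : ℕ => S.R s ((1 : ℕ → 𝒜) N)) = 0 := by
        funext N; simp
      rw [this]
      exact Submodule.zero_mem _
    · exact S.Msp_Rw u (s :: w) (by simp) (by simpa using h2)
  | zero =>
    have : (fun N : ℕ => S.R s ((0 : ℕ → 𝒜) N)) = 0 := by
      funext N; simp
    rw [this]
    exact Submodule.zero_mem _
  | add x y _ _ hx hy =>
    have : (fun N : ℕ => S.R s ((x + y) N)) = fun N => S.R s (x N) + S.R s (y N) := by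
      funext N; simp
    rw [this]
    exact S.Msp_add u hx hy
  | smul b x hx' hx =>
    have : (fun N : ℕ => S.R s ((b • x) N)) = fun N => b * S.R s (x N) + S.R s b * x N := by
      funext N
      simp only [Pi.smul_apply, smul_eq_mul, Derivation.leibniz]
      ring
    rw [this]
    exact S.Msp_add u (S.Msp_mul u b hx) (S.Msp_mul u _ (S.Msp_mono u (Nat.le_succ m) hx'))

theorem Msp_Rw' (u : ℕ → 𝒜) {m : ℕ} (w : List ι) {x : ℕ → 𝒜} (hx : x ∈ S.Msp u m) :
    (fun N => S.Rw w (x N)) ∈ S.Msp u (m + w.length) := by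
  induction w with
  | nil => exact hx
  | cons s w ih => exact S.Msp_R u s ih

theorem I_add_sq_le (f g : 𝒜) :
    S.I ((f + g) * (f + g)) ≤ 2 * S.I (f * f) + 2 * S.I (g * g) := by
  have h := S.I_sq (f - g)
  have e : (f + g) * (f + g) + (f - g) * (f - g) = (2 : ℝ) • (f * f) + (2 : ℝ) • (g * g) := by
    simp only [two_smul]
    ring
  have := congrArg S.I e
  simp only [map_add, map_smul, smul_eq_mul] at this
  linarith

theorem Msp_bd (u : ℕ → 𝒜) {m : ℕ}
    (hb : ∀ w : List ι, 1 ≤ w.length → w.length ≤ m →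
      ∃ C, ∀ N, S.I (S.Rw w (u N) * S.Rw w (u N)) ≤ C)
    {x : ℕ → 𝒜} (hx : x ∈ S.Msp u m) : ∃ C, ∀ N, S.I (x N * x N) ≤ C := by
  induction hx using Submodule.span_induction with
  | mem x h =>
    rcases h with h | ⟨w, h1, h2, rfl⟩
    · rw [Set.mem_singleton_iff] at h
      subst h
      exact ⟨S.I (1 * 1), fun N => le_rfl⟩
    · exact hb w h1 h2
  | zero => exact ⟨0, fun N => by simp⟩
  | add x y _ _ hx hy =>
    obtain ⟨C, hC⟩ := hx
    obtain ⟨C', hC'⟩ := hy
    exact ⟨2 * C + 2 * C', fun N => (S.I_add_sq_le _ _).trans (by linarith [hC N, hC' N])⟩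
  | smul b x _ hx =>
    obtain ⟨C, hC⟩ := hx
    obtain ⟨K, hK⟩ := S.bdm b
    refine ⟨|K| * C, fun N => (hK (x N)).trans ?_⟩
    have h1 := S.I_sq (x N)
    nlinarith [hC N, le_abs_self K, abs_nonneg K]

/-- The derivations are skew for `BB`, up to a form of the same kind. -/
theorem BB_skew (a : ι → ι → 𝒜) (s : ι) :
    ∃ a' : ι → ι → 𝒜, ∀ u v, S.BB a (S.R s u) v = - S.BB a u (S.R s v) + S.BB a' u v := by
  choose c hc using fun p => S.comm p s
  refine ⟨fun p q => - S.R s (a p q) + ∑ r, c r p • a r q + ∑ r, c r q • a p r,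
    fun u v => ?_⟩
  have e1 : ∀ p, S.R p (S.R s u) = S.R s (S.R p u) + ∑ r, c p r • S.R r u := fun p => by
    rw [← hc p u]; ring
  have e2 : ∀ q, S.R q (S.R s v) = S.R s (S.R q v) + ∑ r, c q r • S.R r v := fun q => by
    rw [← hc q v]; ring
  have h1 : ∀ p q, S.I (a p q * (S.R s (S.R p u) * S.R q v))
      + S.I (a p q * (S.R p u * S.R s (S.R q v))) = - S.I (S.R s (a p q) * (S.R p u * S.R q v)) := by
    intro p q
    rw [← map_add]
    have := S.I_R_mulq s (a p q) (S.R p u * S.R q v)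
    rw [this, neg_neg, Derivation.leibniz]
    congr 1
    simp only [smul_eq_mul]
    ring
  have h2 : ∀ p q, S.I (a p q * (S.R p (S.R s u) * S.R q v))
      = S.I (a p q * (S.R s (S.R p u) * S.R q v))
        + ∑ r, c p r * S.I (a p q * (S.R r u * S.R q v)) := by
    intro p q
    rw [e1 p]
    rw [add_mul, mul_add, map_add, Finset.sum_mul, Finset.mul_sum, map_sum]
    congr 1
    refine Finset.sum_congr rfl fun r _ => ?_
    rw [smul_mul_assoc, mul_smul_comm, map_smul, smul_eq_mul]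
  have h3 : ∀ p q, S.I (a p q * (S.R p u * S.R q (S.R s v)))
      = S.I (a p q * (S.R p u * S.R s (S.R q v)))
        + ∑ r, c q r * S.I (a p q * (S.R p u * S.R r v)) := by
    intro p q
    rw [e2 q]
    rw [mul_add, mul_add, map_add, Finset.mul_sum, Finset.mul_sum, map_sum]
    congr 1
    refine Finset.sum_congr rfl fun r _ => ?_
    rw [mul_smul_comm, mul_smul_comm, map_smul, smul_eq_mul]
  have h4 : ∀ p q, S.I ((- S.R s (a p q) + ∑ r, c r p • a r q + ∑ r, c r q • a p r)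
        * (S.R p u * S.R q v))
      = - S.I (S.R s (a p q) * (S.R p u * S.R q v))
        + ∑ r, c r p * S.I (a r q * (S.R p u * S.R q v))
        + ∑ r, c r q * S.I (a p r * (S.R p u * S.R q v)) := by
    intro p q
    rw [add_mul, add_mul, map_add, map_add, neg_mul, map_neg, Finset.sum_mul, Finset.sum_mul,
      map_sum, map_sum]
    simp only [smul_mul_assoc, map_smul, smul_eq_mul]
  have t1 : ∑ p, ∑ q, ∑ r, c r p * S.I (a r q * (S.R p u * S.R q v))
      = ∑ p, ∑ q, ∑ r, c p r * S.I (a p q * (S.R r u * S.R q v)) := by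
    calc _ = ∑ p, ∑ r, ∑ q, c r p * S.I (a r q * (S.R p u * S.R q v)) :=
          Finset.sum_congr rfl fun p _ => Finset.sum_comm
      _ = ∑ r, ∑ p, ∑ q, c r p * S.I (a r q * (S.R p u * S.R q v)) := Finset.sum_comm
      _ = _ := Finset.sum_congr rfl fun r _ => Finset.sum_comm
  have t2 : ∑ p, ∑ q, ∑ r, c r q * S.I (a p r * (S.R p u * S.R q v))
      = ∑ p, ∑ q, ∑ r, c q r * S.I (a p q * (S.R p u * S.R r v)) :=
    Finset.sum_congr rfl fun p _ => Finset.sum_comm
  have key : S.BB a (S.R s u) v + S.BB a u (S.R s v)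
      = ∑ p, ∑ q, S.I ((- S.R s (a p q) + ∑ r, c r p • a r q + ∑ r, c r q • a p r)
        * (S.R p u * S.R q v)) := by
    rw [BB, BB, ← Finset.sum_add_distrib]
    simp only [← Finset.sum_add_distrib, h2, h3, h4]
    simp only [Finset.sum_add_distrib, t1, t2]
    have hs : ∑ p, ∑ q, S.I (a p q * (S.R s (S.R p u) * S.R q v))
        + ∑ p, ∑ q, S.I (a p q * (S.R p u * S.R s (S.R q v)))
        = ∑ p, ∑ q, - S.I (S.R s (a p q) * (S.R p u * S.R q v)) := by
      simp only [← Finset.sum_add_distrib, h1]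
    linarith
  have key' : S.BB a (S.R s u) v + S.BB a u (S.R s v) = S.BB
      (fun p q => - S.R s (a p q) + ∑ r, c r p • a r q + ∑ r, c r q • a p r) u v := key
  linarith

theorem I_LL (a : ι → ι → 𝒜) (u v : 𝒜) : S.I (S.LL a u * v) = - S.BB a u v := by
  rw [LL, BB, Finset.sum_mul, map_sum, ← Finset.sum_neg_distrib]
  refine Finset.sum_congr rfl fun s _ => ?_
  rw [Finset.sum_mul, map_sum, ← Finset.sum_neg_distrib]
  refine Finset.sum_congr rfl fun t _ => ?_
  rw [S.I_R_mulq, mul_assoc]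

theorem I_dv (p : ι → 𝒜) (v : 𝒜) : S.I (S.dv p * v) = - ∑ t, S.I (p t * S.R t v) := by
  rw [dv, Finset.sum_mul, map_sum, ← Finset.sum_neg_distrib]
  exact Finset.sum_congr rfl fun t _ => S.I_R_mulq t _ _

theorem Rw_mem {W : Submodule ℝ 𝒜} (hW : ∀ s, ∀ f ∈ W, S.R s f ∈ W) (w : List ι) {f : 𝒜}
    (hf : f ∈ W) : S.Rw w f ∈ W := by
  induction w with
  | nil => exact hf
  | cons s w ih => exact hW s _ ih

/-- The equation of the derivatives. -/
theorem eq_Rw (a : ι → ι → 𝒜) (p : ι → 𝒜) (V : ℕ → Submodule ℝ 𝒜)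
    (hV : ∀ N s, ∀ f ∈ V N, S.R s f ∈ V N) (u : ℕ → 𝒜)
    (heq : ∀ N, ∀ v ∈ V N, S.BB a (u N) v = - S.I (S.dv p * v)) (w : List ι) :
    ∃ q : ι → ℕ → 𝒜, (∀ t, q t ∈ S.Msp u w.length) ∧
      ∀ N, ∀ v ∈ V N, S.BB a (S.Rw w (u N)) v = ∑ t, S.I (q t N * S.R t v) := by
  induction w with
  | nil =>
    refine ⟨fun t _ => p t, fun t => S.Msp_const u _ _, fun N v hv => ?_⟩
    rw [show S.Rw [] (u N) = u N from rfl, heq N v hv, S.I_dv, neg_neg]
  | cons s w ih =>
    obtain ⟨q, hq, hqe⟩ := ih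
    obtain ⟨a', ha'⟩ := S.BB_skew a s
    choose c hc using fun t => S.comm t s
    refine ⟨fun t N => S.R s (q t N) - ∑ r, algebraMap ℝ 𝒜 (c r t) * q r N
        + ∑ r, a' r t * S.Rw (r :: w) (u N), fun t => ?_, fun N v hv => ?_⟩
    · refine S.Msp_add u (S.Msp_sub u (S.Msp_R u s (hq t)) ?_) ?_
      · exact S.Msp_mono u (Nat.le_succ _)
          (S.Msp_sum u Finset.univ fun r _ => S.Msp_mul u _ (hq r))
      · exact S.Msp_sum u Finset.univ fun r _ =>
          S.Msp_mul u _ (S.Msp_Rw u (r :: w) (by simp) (by simp))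
    · rw [show S.Rw (s :: w) (u N) = S.R s (S.Rw w (u N)) from rfl, ha',
        hqe N _ (hV N s v hv)]
      have e2 : ∀ t, S.R t (S.R s v) = S.R s (S.R t v) + ∑ r, c t r • S.R r v := fun t => by
        rw [← hc t v]; ring
      have h1 : ∀ t, S.I (q t N * S.R t (S.R s v))
          = - S.I (S.R s (q t N) * S.R t v) + ∑ r, c t r * S.I (q t N * S.R r v) := by
        intro t
        rw [e2 t, mul_add, map_add, Finset.mul_sum, map_sum, S.I_R_mulq, neg_neg]
        congr 1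
        exact Finset.sum_congr rfl fun r _ => by rw [mul_smul_comm, map_smul, smul_eq_mul]
      have h2 : ∀ t, S.I ((S.R s (q t N) - ∑ r, algebraMap ℝ 𝒜 (c r t) * q r N
          + ∑ r, a' r t * S.Rw (r :: w) (u N)) * S.R t v)
          = S.I (S.R s (q t N) * S.R t v) - ∑ r, c r t * S.I (q r N * S.R t v)
            + ∑ r, S.I (a' r t * (S.R r (S.Rw w (u N)) * S.R t v)) := by
        intro t
        rw [add_mul, sub_mul, map_add, map_sub, Finset.sum_mul, Finset.sum_mul, map_sum, map_sum]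
        congr 1
        · congr 1
          refine Finset.sum_congr rfl fun r _ => ?_
          rw [mul_assoc, ← Algebra.smul_def, map_smul, smul_eq_mul]
        · refine Finset.sum_congr rfl fun r _ => ?_
          rw [mul_assoc]
          rfl
      simp only [h1, h2]
      rw [BB]
      simp only [Finset.sum_add_distrib, Finset.sum_sub_distrib, Finset.sum_neg_distrib]
      rw [Finset.sum_comm (f := fun t r => c t r * S.I (q t N * S.R r v)),
        Finset.sum_comm (f := fun t r => S.I (a' t r * (S.R t (S.Rw w (u N)) * S.R r v)))]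
      ring

/-- All derivatives of order `≥ 1` are bounded in the mean square. -/
theorem bd_Rw (a : ι → ι → 𝒜)
    (ell : ∃ c : ℝ, 0 < c ∧ ∀ u, c * ∑ s, S.I (S.R s u * S.R s u) ≤ S.BB a u u)
    (p : ι → 𝒜) (V : ℕ → Submodule ℝ 𝒜)
    (hV : ∀ N s, ∀ f ∈ V N, S.R s f ∈ V N) (u : ℕ → 𝒜) (hu : ∀ N, u N ∈ V N)
    (heq : ∀ N, ∀ v ∈ V N, S.BB a (u N) v = - S.I (S.dv p * v)) (m : ℕ) :
    ∀ w : List ι, 1 ≤ w.length → w.length ≤ m →
      ∃ C, ∀ N, S.I (S.Rw w (u N) * S.Rw w (u N)) ≤ C := by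
  obtain ⟨c, hc, hell⟩ := ell
  induction m with
  | zero => intro w h1 h2; omega
  | succ m ih =>
    intro w h1 h2
    match w with
    | [] => simp at h1
    | s :: w =>
      have hlen : w.length ≤ m := by simpa using h2
      obtain ⟨q, hq, hqe⟩ := S.eq_Rw a p V hV u heq w
      have hb : ∀ t, ∃ C, ∀ N, S.I (q t N * q t N) ≤ C := fun t =>
        S.Msp_bd u (fun w' h1 h2 => ih w' h1 (h2.trans hlen)) (hq t)
      choose C hC using hb
      refine ⟨(∑ t, C t) / (c * c), fun N => ?_⟩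
      set z := S.Rw w (u N) with hz
      have hzV : z ∈ V N := S.Rw_mem (hV N) w (hu N)
      have h3 := hell z
      rw [hz, hqe N z hzV, ← hz] at h3
      have h4 : ∀ t, S.I (q t N * S.R t z)
          ≤ (1 / (2 * c)) * S.I (q t N * q t N) + (c / 2) * S.I (S.R t z * S.R t z) := by
        intro t
        have h := S.I_sq ((1 / c) • q t N + (-1 : ℝ) • S.R t z)
        have e : ((1 / c) • q t N + (-1 : ℝ) • S.R t z) * ((1 / c) • q t N + (-1 : ℝ) • S.R t z)
            = (1 / c * (1 / c)) • (q t N * q t N) + (-2 * (1 / c)) • (q t N * S.R t z)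
              + (S.R t z * S.R t z) := by
          simp only [Algebra.smul_def, map_mul, map_neg, map_one, map_ofNat]
          ring
        rw [e] at h
        simp only [map_add, map_smul, smul_eq_mul] at h
        have h5 : 0 ≤ (c / 2) * ((1 / c * (1 / c)) * S.I (q t N * q t N)
            + (-2 * (1 / c)) * S.I (q t N * S.R t z) + S.I (S.R t z * S.R t z)) := by
          positivity
        have h6 : (c / 2) * ((1 / c * (1 / c)) * S.I (q t N * q t N)
            + (-2 * (1 / c)) * S.I (q t N * S.R t z) + S.I (S.R t z * S.R t z))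
            = (1 / (2 * c)) * S.I (q t N * q t N) + (c / 2) * S.I (S.R t z * S.R t z)
              - S.I (q t N * S.R t z) := by
          field_simp
          ring
        linarith
      have h5 : ∑ t, S.I (q t N * S.R t z) ≤ (1 / (2 * c)) * ∑ t, C t
          + (c / 2) * ∑ t, S.I (S.R t z * S.R t z) := by
        rw [Finset.mul_sum, Finset.mul_sum, ← Finset.sum_add_distrib]
        refine Finset.sum_le_sum fun t _ => (h4 t).trans ?_
        have := mul_le_mul_of_nonneg_left (hC t N) (by positivity : 0 ≤ 1 / (2 * c))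
        linarith
      have h6 : (c / 2) * ∑ t, S.I (S.R t z * S.R t z) ≤ (1 / (2 * c)) * ∑ t, C t := by
        linarith
      have h7 : S.I (S.R s z * S.R s z) ≤ ∑ t, S.I (S.R t z * S.R t z) :=
        Finset.single_le_sum (f := fun t => S.I (S.R t z * S.R t z))
          (fun t _ => S.I_sq _) (Finset.mem_univ s)
      show S.I (S.R s z * S.R s z) ≤ _
      refine h7.trans ?_
      rw [le_div_iff₀ (by positivity)]
      have h8 : (c / 2) * (∑ t, S.I (S.R t z * S.R t z)) * (2 * c)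
          ≤ (1 / (2 * c)) * (∑ t, C t) * (2 * c) :=
        mul_le_mul_of_nonneg_right h6 (by positivity)
      have h9 : (1 / (2 * c)) * (∑ t, C t) * (2 * c) = ∑ t, C t := by field_simp
      nlinarith

end Rsys

/-- The bounds. -/
theorem galerkin_bounds {𝒜 ι : Type*} [CommRing 𝒜] [Algebra ℝ 𝒜] [Fintype ι] (S : Rsys 𝒜 ι)
    (a : ι → ι → 𝒜)
    (ell : ∃ c : ℝ, 0 < c ∧ ∀ u, c * ∑ s, S.I (S.R s u * S.R s u) ≤ S.BB a u u)
    (p : ι → 𝒜) (V : ℕ → Submodule ℝ 𝒜)
    (hV : ∀ N s, ∀ f ∈ V N, S.R s f ∈ V N) (u : ℕ → 𝒜) (hu : ∀ N, u N ∈ V N)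
    (heq : ∀ N, ∀ v ∈ V N, S.BB a (u N) v = - S.I (S.dv p * v)) :
    S.Bd (fun N => S.LL a (u N) - S.dv p) := by
  intro w
  have hM : (fun N => S.LL a (u N) - S.dv p) ∈ S.Msp u 2 := by
    refine S.Msp_sub u ?_ (S.Msp_const u _ _)
    refine S.Msp_sum u Finset.univ fun s _ => S.Msp_sum u Finset.univ fun t _ => ?_
    exact S.Msp_R u t (S.Msp_mul u _ (S.Msp_Rw u [s] le_rfl le_rfl))
  exact S.Msp_bd u (S.bd_Rw a ell p V hV u hu heq _) (S.Msp_Rw' u w hM)

/-- [A2]. -/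
theorem galerkin {𝒜 ι : Type*} [CommRing 𝒜] [Algebra ℝ 𝒜] [Fintype ι] (S : Rsys 𝒜 ι)
    (a : ι → ι → 𝒜) (sym : ∀ s t, a s t = a t s)
    (ell : ∃ c : ℝ, 0 < c ∧ ∀ u, c * ∑ s, S.I (S.R s u * S.R s u) ≤ S.BB a u u)
    (p : ι → 𝒜) (V : ℕ → Submodule ℝ 𝒜) (fin : ∀ N, FiniteDimensional ℝ (V N))
    (hV : ∀ N s, ∀ f ∈ V N, S.R s f ∈ V N) :
    ∃ u : ℕ → 𝒜, (∀ N, u N ∈ V N) ∧
      (∀ N, ∀ v ∈ V N, S.I (S.LL a (u N) * v) = S.I (S.dv p * v)) ∧
      S.Bd (fun N => S.LL a (u N) - S.dv p) := by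
  choose u hu heq using fun N => galerkin_exists S a sym ell p (V N) (fin N)
  refine ⟨u, hu, fun N v hv => ?_, galerkin_bounds S a ell p V hV u hu heq⟩
  rw [S.I_LL, heq N v hv, neg_neg]

end Vale.Agent.P366.H353.N
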