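import Vale.Agent.P366.H353.N.Rsys

/-! [A3] and [A6]: abstract Banach-Saks and the range of the divergence. -/

noncomputable section
namespace Vale.Agent.P366.H353.N

namespace Rsys

variable {𝒜 ι : Type*} [CommRing 𝒜] [Algebra ℝ 𝒜] [Fintype ι] (S : Rsys 𝒜 ι)

/-- The bilinear form `I (f * g)`. -/
def ipq : 𝒜 →ₗ[ℝ] 𝒜 →ₗ[ℝ] ℝ := (LinearMap.mul ℝ 𝒜).compr₂ S.I

theorem ipq_apply (f g : 𝒜) : S.ipq f g = S.I (f * g) := rfl

theorem ipq_comm (f g : 𝒜) : S.ipq f g = S.ipq g f := by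
  rw [ipq_apply, ipq_apply, mul_comm]

theorem ipq_expand (f g : 𝒜) (t : ℝ) :
    S.I ((f + t • g) * (f + t • g)) = S.I (f * f) + 2 * t * S.I (f * g) + t ^ 2 * S.I (g * g) := by
  have e : (f + t • g) * (f + t • g) = f * f + (2 * t) • (f * g) + (t ^ 2) • (g * g) := by
    simp only [Algebra.smul_def, map_mul, map_pow, map_ofNat]
    ring
  rw [e]
  simp only [map_add, map_smul, smul_eq_mul]

/-- Cauchy-Schwarz. -/
theorem ipq_sq_le (f g : 𝒜) : S.I (f * g) ^ 2 ≤ S.I (f * f) * S.I (g * g) := by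
  have h : ∀ t : ℝ, 0 ≤ S.I (g * g) * (t * t) + (2 * S.I (f * g)) * t + S.I (f * f) := by
    intro t
    have := S.I_sq (f + t • g)
    rw [ipq_expand] at this
    nlinarith
  have hd := discrim_le_zero h
  rw [discrim] at hd
  nlinarith

theorem ipq_zero {f : 𝒜} (hf : S.I (f * f) = 0) (g : 𝒜) : S.I (f * g) = 0 := by
  have h := S.ipq_sq_le f g
  rw [hf, zero_mul] at h
  have := sq_nonneg (S.I (f * g))
  exact pow_eq_zero_iff (two_ne_zero) |>.1 (le_antisymm h this)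

/-- Orthogonal projection on a finite dimensional subspace (for the semidefinite form). -/
theorem exists_projq (W : Submodule ℝ 𝒜) (fin : FiniteDimensional ℝ W) (v : 𝒜) :
    ∃ w ∈ W, ∀ w' ∈ W, S.I ((v - w) * w') = 0 := by
  let T : W →ₗ[ℝ] Module.Dual ℝ W := (S.ipq.domRestrict₁₂ W W)
  let l : Module.Dual ℝ W := (S.ipq v).domRestrict W
  have hT : ∀ a b : W, T a b = S.I ((a : 𝒜) * b) := fun a b => rfl
  have hl : ∀ b : W, l b = S.I (v * b) := fun b => rfl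
  have hmem : l ∈ T.dualMap.range := by
    rw [LinearMap.range_dualMap_eq_dualAnnihilator_ker, Submodule.mem_dualAnnihilator]
    intro k hk
    have h1 : T k k = 0 := by
      rw [LinearMap.mem_ker.1 hk]; rfl
    rw [hT] at h1
    rw [hl, mul_comm]
    exact S.ipq_zero h1 v
  obtain ⟨φ, hφ⟩ := hmem
  obtain ⟨w, rfl⟩ := (Module.evalEquiv ℝ W).surjective φ
  refine ⟨w, w.2, fun w' hw' => ?_⟩
  have h2 : T.dualMap (Module.evalEquiv ℝ W w) ⟨w', hw'⟩ = l ⟨w', hw'⟩ := by rw [hφ]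
  have h3 : T.dualMap (Module.evalEquiv ℝ W w) ⟨w', hw'⟩ = S.I (w' * (w : 𝒜)) := rfl
  rw [h3, hl] at h2
  rw [sub_mul, map_sub, sub_eq_zero, ← h2, mul_comm]

theorem I_R_mulq (s : ι) (f g : 𝒜) : S.I (S.R s f * g) = - S.I (f * S.R s g) := by
  have h := S.I_R s (f * g)
  rw [Derivation.leibniz] at h
  simp only [smul_eq_mul, map_add] at h
  rw [mul_comm (S.R s f) g]
  linarith

theorem I_dvq (p : ι → 𝒜) : S.I (S.dv p) = 0 := by
  rw [dv, map_sum]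
  exact Finset.sum_eq_zero fun t _ => S.I_R t _

end Rsys

/-- Abstract Banach-Saks. -/
theorem banach_saks {𝒜 ι : Type*} [CommRing 𝒜] [Algebra ℝ 𝒜] [Fintype ι] (S : Rsys 𝒜 ι)
    (g : ℕ → 𝒜) (hb : ∃ C, ∀ N, S.I (g N * g N) ≤ C)
    (V : ℕ → Submodule ℝ 𝒜) (mono : Monotone V)
    (dense : ∀ f : 𝒜, ∀ ε > 0, ∃ N, ∃ v ∈ V N, S.I ((f - v) * (f - v)) ≤ ε)
    (orth : ∀ N, ∀ v ∈ V N, S.I (g N * v) = 0) {ε : ℝ} (hε : 0 < ε) :
    ∃ (F : Finset ℕ) (w : ℕ → ℝ), (∀ i ∈ F, 0 ≤ w i) ∧ ∑ i ∈ F, w i = 1 ∧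
      S.I ((∑ i ∈ F, w i • g i) * (∑ i ∈ F, w i • g i)) ≤ ε := by
  obtain ⟨C₀, hC₀⟩ := hb
  obtain ⟨C, hC0, hC⟩ : ∃ C : ℝ, 0 < C ∧ ∀ N, S.I (g N * g N) ≤ C :=
    ⟨max C₀ 1, lt_max_of_lt_right one_pos, fun N => (hC₀ N).trans (le_max_left _ _)⟩
  -- weak convergence
  have weak : ∀ f : 𝒜, ∃ N₀, ∀ N ≥ N₀, |S.I (g N * f)| ≤ 1 / 2 := by
    intro f
    obtain ⟨N₀, v, hv, hfv⟩ := dense f (1 / (4 * C)) (by positivity)
    refine ⟨N₀, fun N hN => ?_⟩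
    have h1 : S.I (g N * f) = S.I (g N * (f - v)) := by
      rw [mul_sub, map_sub, orth N v (mono hN hv), sub_zero]
    have h2 := S.ipq_sq_le (g N) (f - v)
    have h3 : S.I (g N * g N) * S.I ((f - v) * (f - v)) ≤ C * (1 / (4 * C)) :=
      mul_le_mul (hC N) hfv (S.I_sq _) hC0.le
    have h4 : C * (1 / (4 * C)) = (1 / 2) ^ 2 := by field_simp; norm_num
    rw [h1]
    exact abs_le_of_sq_le_sq (by linarith) (by norm_num)
  have key : ∀ M : ℕ, ∃ F : Finset ℕ, F.card = M ∧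
      S.I ((∑ i ∈ F, g i) * (∑ i ∈ F, g i)) ≤ M * (C + 1) := by
    intro M
    induction M with
    | zero => exact ⟨∅, rfl, by simp⟩
    | succ M ih =>
      obtain ⟨F, hF, hs⟩ := ih
      obtain ⟨N₀, hN₀⟩ := weak (∑ i ∈ F, g i)
      obtain ⟨N, hN, hNF⟩ : ∃ N ≥ N₀, N ∉ F := by
        obtain ⟨N, hN⟩ := Infinite.exists_notMem_finset (F ∪ Finset.range N₀)
        simp only [Finset.mem_union, Finset.mem_range, not_or, not_lt] at hN
        exact ⟨N, hN.2, hN.1⟩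
      refine ⟨insert N F, by rw [Finset.card_insert_of_notMem hNF, hF], ?_⟩
      rw [Finset.sum_insert hNF]
      have e := S.ipq_expand (g N) (∑ i ∈ F, g i) 1
      rw [one_smul] at e
      rw [e]
      have h1 := (abs_le.1 (hN₀ N hN)).2
      have h2 := hC N
      push_cast
      linarith
  obtain ⟨M, hM⟩ := exists_nat_gt ((C + 1) / ε)
  have hM0 : (0 : ℝ) < M := lt_of_le_of_lt (by positivity) hM
  obtain ⟨F, hF, hs⟩ := key M
  refine ⟨F, fun _ => (M : ℝ)⁻¹, fun _ _ => by positivity, ?_, ?_⟩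
  · rw [Finset.sum_const, hF, nsmul_eq_mul, mul_inv_cancel₀ hM0.ne']
  · rw [← Finset.smul_sum, smul_mul_smul_comm, map_smul, smul_eq_mul]
    rw [div_lt_iff₀ hε] at hM
    calc (M : ℝ)⁻¹ * (M : ℝ)⁻¹ * S.I ((∑ i ∈ F, g i) * (∑ i ∈ F, g i))
        ≤ (M : ℝ)⁻¹ * (M : ℝ)⁻¹ * (M * (C + 1)) := by gcongr
      _ = (M : ℝ)⁻¹ * (C + 1) := by field_simp
      _ ≤ (M : ℝ)⁻¹ * (M * ε) := by gcongr
      _ = ε := by field_simp

/-- The range of the divergence contains the mean zero elements of `V`. -/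
theorem dv_range {𝒜 ι : Type*} [CommRing 𝒜] [Algebra ℝ 𝒜] [Fintype ι] (S : Rsys 𝒜 ι)
    (V : Submodule ℝ 𝒜) (fin : FiniteDimensional ℝ V) (hV : ∀ s, ∀ f ∈ V, S.R s f ∈ V)
    (const : ∀ r : 𝒜, (∀ s, S.I (S.R s r * S.R s r) = 0) →
      ∃ c : ℝ, S.I ((r - algebraMap ℝ 𝒜 c) * (r - algebraMap ℝ 𝒜 c)) = 0)
    {v : 𝒜} (hv : v ∈ V) (hv0 : S.I v = 0) :
    ∃ p : ι → 𝒜, S.I ((v - S.dv p) * (v - S.dv p)) = 0 := by
  classical
  -- the divergence as a linear map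
  let D : (ι → 𝒜) →ₗ[ℝ] 𝒜 := ∑ t, (S.R t : 𝒜 →ₗ[ℝ] 𝒜).comp (LinearMap.proj t)
  have hD : ∀ p, D p = S.dv p := fun p => by
    simp only [D, LinearMap.sum_apply, LinearMap.comp_apply, LinearMap.proj_apply, Rsys.dv]
    rfl
  let P : Submodule ℝ (ι → 𝒜) := Submodule.pi Set.univ fun _ => V
  have hP : ∀ p, p ∈ P ↔ ∀ t, p t ∈ V := fun p => by
    simp [P, Submodule.mem_pi]
  let W : Submodule ℝ 𝒜 := P.map D
  have hW : ∀ w ∈ W, ∃ p : ι → 𝒜, (∀ t, p t ∈ V) ∧ S.dv p = w := by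
    rintro w ⟨p, hp, rfl⟩
    exact ⟨p, (hP p).1 hp, (hD p).symm⟩
  have hWV : W ≤ V := by
    intro w hw
    obtain ⟨p, hp, rfl⟩ := hW w hw
    exact Submodule.sum_mem _ fun t _ => hV t _ (hp t)
  have := fin
  have finW : FiniteDimensional ℝ W := Submodule.finiteDimensional_of_le hWV
  obtain ⟨w, hw, hproj⟩ := S.exists_projq W finW v
  obtain ⟨p, hp, rfl⟩ := hW w hw
  refine ⟨p, ?_⟩
  set r := v - S.dv p with hr
  have hrV : r ∈ V := V.sub_mem hv (hWV hw)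
  have h1 : ∀ s, ∀ q ∈ V, S.I (r * S.R s q) = 0 := by
    intro s q hq
    have hm : S.R s q ∈ W := by
      refine ⟨Pi.single s q, (hP _).2 fun t => ?_, ?_⟩
      · by_cases h : t = s
        · subst h; simpa using hq
        · rw [Pi.single_eq_of_ne h]; exact V.zero_mem
      · rw [hD, Rsys.dv, Finset.sum_eq_single s]
        · rw [Pi.single_eq_same]
        · intro t _ ht
          rw [Pi.single_eq_of_ne ht, map_zero]
        · intro h; exact absurd (Finset.mem_univ s) h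
    exact hproj _ hm
  have h2 : ∀ s, S.I (S.R s r * S.R s r) = 0 := by
    intro s
    rw [S.I_R_mulq, h1 s _ (hV s r hrV), neg_zero]
  obtain ⟨c, hc⟩ := const r h2
  have hIr : S.I r = 0 := by
    rw [hr, map_sub, hv0, S.I_dvq, sub_zero]
  have h3 := S.ipq_zero hc 1
  rw [mul_one, map_sub, hIr] at h3
  have h4 := S.ipq_zero hc r
  have e : r * r = (r - algebraMap ℝ 𝒜 c) * r + c • r := by
    rw [Algebra.smul_def]; ring
  rw [e, map_add, h4, map_smul, hIr, smul_zero, add_zero]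

end Vale.Agent.P366.H353.N
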