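import Vale.Agent.P366.H381.NA3

/-! [A2], first half: existence of the Galerkin solution. -/

noncomputable section
namespace Vale.Agent.P366.H353.N

namespace Rsys

variable {𝒜 ι : Type*} [CommRing 𝒜] [Algebra ℝ 𝒜] [Fintype ι] (S : Rsys 𝒜 ι)

/-- The form `BB a` as a bilinear map. -/
def BBl (a : ι → ι → 𝒜) : 𝒜 →ₗ[ℝ] 𝒜 →ₗ[ℝ] ℝ :=
  LinearMap.mk₂ ℝ (S.BB a)
    (fun u u' v => by
      simp only [BB, map_add, add_mul, mul_add, Finset.sum_add_distrib])
    (fun c u v => by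
      simp only [BB, Derivation.map_smul, smul_mul_assoc, mul_smul_comm, map_smul,
        smul_eq_mul, Finset.mul_sum])
    (fun u v v' => by
      simp only [BB, map_add, mul_add, Finset.sum_add_distrib])
    (fun c u v => by
      simp only [BB, Derivation.map_smul, mul_smul_comm, map_smul,
        smul_eq_mul, Finset.mul_sum])

theorem BBl_apply (a : ι → ι → 𝒜) (u v : 𝒜) : S.BBl a u v = S.BB a u v := rfl

theorem BB_symm {a : ι → ι → 𝒜} (sym : ∀ s t, a s t = a t s) (u v : 𝒜) :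
    S.BB a u v = S.BB a v u := by
  rw [BB, BB, Finset.sum_comm]
  refine Finset.sum_congr rfl fun t _ => Finset.sum_congr rfl fun s _ => ?_
  rw [sym s t, mul_comm (S.R s u)]

/-- Where the energy vanishes, `I (dv p * k) = 0`. -/
theorem dv_of_BB_zero {a : ι → ι → 𝒜}
    (ell : ∃ c : ℝ, 0 < c ∧ ∀ u, c * ∑ s, S.I (S.R s u * S.R s u) ≤ S.BB a u u)
    (p : ι → 𝒜) {k : 𝒜} (hk : S.BB a k k = 0) : S.I (S.dv p * k) = 0 := by
  obtain ⟨c, hc, h⟩ := ell
  have h1 := h k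
  rw [hk] at h1
  have h0 : ∀ s ∈ Finset.univ, 0 ≤ S.I (S.R s k * S.R s k) := fun s _ => S.I_sq _
  have h2 : ∑ s, S.I (S.R s k * S.R s k) = 0 := by
    refine le_antisymm ?_ (Finset.sum_nonneg h0)
    by_contra hne
    push Not at hne
    nlinarith
  have h3 := (Finset.sum_eq_zero_iff_of_nonneg h0).1 h2
  rw [dv, Finset.sum_mul, map_sum]
  refine Finset.sum_eq_zero fun t _ => ?_
  rw [S.I_R_mulq, mul_comm, S.ipq_zero (h3 t (Finset.mem_univ _)), neg_zero]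

end Rsys

/-- Existence of the Galerkin solution on a finite dimensional subspace. -/
theorem galerkin_exists {𝒜 ι : Type*} [CommRing 𝒜] [Algebra ℝ 𝒜] [Fintype ι] (S : Rsys 𝒜 ι)
    (a : ι → ι → 𝒜) (sym : ∀ s t, a s t = a t s)
    (ell : ∃ c : ℝ, 0 < c ∧ ∀ u, c * ∑ s, S.I (S.R s u * S.R s u) ≤ S.BB a u u)
    (p : ι → 𝒜) (W : Submodule ℝ 𝒜) (fin : FiniteDimensional ℝ W) :
    ∃ u ∈ W, ∀ v ∈ W, S.BB a u v = - S.I (S.dv p * v) := by
  let T : W →ₗ[ℝ] Module.Dual ℝ W := ((S.BBl a).domRestrict₁₂ W W)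
  let l : Module.Dual ℝ W := - (S.ipq (S.dv p)).domRestrict W
  have hT : ∀ a' b : W, T a' b = S.BB a (a' : 𝒜) b := fun a b => rfl
  have hl : ∀ b : W, l b = - S.I (S.dv p * b) := fun b => rfl
  have hmem : l ∈ T.dualMap.range := by
    rw [LinearMap.range_dualMap_eq_dualAnnihilator_ker, Submodule.mem_dualAnnihilator]
    intro k hk
    have h1 : T k k = 0 := by
      rw [LinearMap.mem_ker.1 hk]; rfl
    rw [hT] at h1
    rw [hl, S.dv_of_BB_zero ell p h1, neg_zero]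
  obtain ⟨φ, hφ⟩ := hmem
  obtain ⟨w, rfl⟩ := (Module.evalEquiv ℝ W).surjective φ
  refine ⟨w, w.2, fun w' hw' => ?_⟩
  have h2 : T.dualMap (Module.evalEquiv ℝ W w) ⟨w', hw'⟩ = l ⟨w', hw'⟩ := by rw [hφ]
  have h3 : T.dualMap (Module.evalEquiv ℝ W w) ⟨w', hw'⟩ = S.BB a w' (w : 𝒜) := rfl
  rw [h3, hl] at h2
  rw [S.BB_symm sym, h2]

end Vale.Agent.P366.H353.N
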