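import Vale.Agent.P366.H381.NE1
import Vale.Agent.P366.H353.N.Main

/-! Equality in the null shell inequality forces the time function to be constant. -/

open MeasureTheory Metric Filter Topology Set
open scoped ContDiff Matrix

noncomputable section
namespace Vale.Agent.P366.H353.N

open Vale.Agent.P366 (sphI sphM pd E)

variable {n : ℕ}

open D208 in
/-- The slack in `A ≤ tr A`. -/
lemma qf_gap [hn : Fact (3 ≤ n)] (D : Ten n) : ∃ c : ℝ, 0 < c ∧ ∀ x : E n, ‖x‖ = 1 →
    ∀ v : Fin n → ℝ, ∑ i, x i * v i = 0 →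
      qf (D.A x) v v + c * ∑ i, v i ^ 2 ≤ tr (D.A x) * ∑ i, v i ^ 2 := by
  obtain ⟨c, hc, h⟩ := exists_ell D
  refine ⟨c, hc, fun x hx v hv => ?_⟩
  have h3 : (3 : ℝ) ≤ n := by exact_mod_cast hn.out
  have hx2 : ∑ i, x i ^ 2 = 1 := sum_sq hx
  have h0 := ne_zero_of_one hx
  set B : Fin n → Fin n → ℝ := fun i j => D.A x i j - c * pr x i j with hB
  have hBs : ∀ i j, B i j = B j i := fun i j => by
    simp only [hB, pr]
    rw [D.symA x i j, kd_comm i j]; ring
  have hpr : ∀ w : Fin n → ℝ, qf (fun i j => c * pr x i j) w w =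
      c * (∑ i, w i ^ 2 - (∑ i, x i * w i) ^ 2) := by
    intro w
    unfold qf pr
    have e1 : ∀ i, ∑ j, c * (kd i j - x i * x j) * w i * w j =
        c * w i * (∑ j, kd i j * w j) - c * (x i * w i) * ∑ j, x j * w j := by
      intro i
      rw [Finset.mul_sum, Finset.mul_sum, ← Finset.sum_sub_distrib]
      exact Finset.sum_congr rfl fun j _ => by ring
    simp only [e1, kd_mul]
    have e2 : ∑ i, c * w i * w i = c * ∑ i, w i ^ 2 := by
      rw [Finset.mul_sum]
      exact Finset.sum_congr rfl fun i _ => by ring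
    rw [Finset.sum_sub_distrib, ← Finset.sum_mul, e2, ← Finset.mul_sum]
    ring
  have hqB : ∀ w : Fin n → ℝ, qf B w w =
      qf (D.A x) w w - c * (∑ i, w i ^ 2 - (∑ i, x i * w i) ^ 2) := by
    intro w
    rw [← hpr w]
    simp only [hB, qf, ← Finset.sum_sub_distrib]
    exact Finset.sum_congr rfl fun i _ => Finset.sum_congr rfl fun j _ => by ring
  have hBn : ∀ w : Fin n → ℝ, 0 ≤ qf B w w := by
    intro w
    obtain ⟨h1, h2⟩ := qf_split hx2 (D.symA x) (D.tanA x h0) w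
    have h4 := h x hx _ h2
    rw [← h1] at h4
    have h5 : ∑ i, (w i - (∑ k, x k * w k) * x i) ^ 2 = ∑ i, w i ^ 2 - (∑ i, x i * w i) ^ 2 := by
      have e : ∀ i, (w i - (∑ k, x k * w k) * x i) ^ 2 =
          w i ^ 2 - 2 * (∑ k, x k * w k) * (x i * w i) + (∑ k, x k * w k) ^ 2 * x i ^ 2 :=
        fun i => by ring
      simp only [e, Finset.sum_add_distrib, Finset.sum_sub_distrib, ← Finset.mul_sum, hx2]
      ring
    rw [h5] at h4
    rw [hqB]
    linarith
  have h6 := qf_le_tr hBs hBn v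
  have h7 : tr B = tr (D.A x) - c * ((n : ℝ) - 1) := by
    simp only [hB, tr, pr, Finset.sum_sub_distrib, ← Finset.mul_sum]
    have e1 : ∑ i : Fin n, kd i i = (n : ℝ) := by simp [kd]
    have e2 : ∑ i, x i * x i = 1 := by rw [← hx2]; exact Finset.sum_congr rfl fun i _ => by ring
    rw [e1, e2]
  rw [hqB, h7, hv] at h6
  have h8 : 0 ≤ ∑ i, v i ^ 2 := Finset.sum_nonneg fun i _ => sq_nonneg _
  have h9 : 0 ≤ c * ((n : ℝ) - 3) * ∑ i, v i ^ 2 :=
    mul_nonneg (mul_nonneg hc.le (by linarith)) h8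
  nlinarith

/-- Equality in the core inequality forces `b = 0`. -/
theorem core_eq_b [hn : Fact (3 ≤ n)] (D : Ten n)
    (heq : SI D.Phi ^ (n - 1) = ((n : ℝ) - 1) ^ (n - 1) * om n * SI D.G ^ (n - 2)) :
    ∀ x : E n, ‖x‖ = 1 → D.b x = 0 := by
  have n3 := hn.out
  obtain ⟨c, hc, hgap⟩ := qf_gap D
  have h1 := core_ph D
  rw [← heq] at h1
  have hAn : ∀ x : E n, ‖x‖ = 1 → ∀ v : Fin n → ℝ, 0 ≤ qf (D.A x) v v := fun x hx =>
    D208.qf_nonneg (D208.sum_sq hx) (D.symA x) (D.tanA x (ne_zero_of_one hx)) (D.posA x hx)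
  have hT : ∀ x : E n, ‖x‖ = 1 → 0 ≤ tr (D.A x) := fun x hx =>
    Finset.sum_nonneg fun i _ => by
      have := hAn x hx (Pi.single i 1)
      unfold qf at this
      simpa [Pi.single_apply] using this
  have hS : ∀ x : E n, ‖x‖ = 1 → c * ∑ i, D.b x i ^ 2 ≤
      tr (D.A x) * ∑ i, D.b x i ^ 2 - qf (D.A x) (D.b x) (D.b x) := fun x hx => by
    have := hgap x hx (D.b x) (D.tanb x (ne_zero_of_one hx))
    linarith
  have hb0 : ∀ x : E n, 0 ≤ ∑ i, D.b x i ^ 2 := fun x => Finset.sum_nonneg fun i _ => sq_nonneg _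
  have cPh := D.sm_Ph.contOn
  have cPhi := D.sm_Phi.contOn
  have h2 : 0 ≤ SI D.Ph := SI_nonneg fun x hx => by
    unfold Ten.Ph
    have := hS x hx
    have := mul_nonneg hc.le (hb0 x)
    have := hT x hx
    linarith
  have hle : ∀ x : E n, ‖x‖ = 1 → D.Ph x ≤ D.Phi x := fun x hx => by
    unfold Ten.Ph Ten.Phi
    have := hS x hx
    have := mul_nonneg hc.le (hb0 x)
    linarith
  have h3 : SI D.Ph ≤ SI D.Phi := SI_mono cPh cPhi hle
  have h4 : SI D.Phi ≤ SI D.Ph := by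
    by_contra hcon
    push Not at hcon
    have := pow_lt_pow_left₀ hcon h2 (by omega : n - 1 ≠ 0)
    linarith
  have h5 : SI (fun x => D.Phi x - D.Ph x) = 0 := by
    rw [SI_sub cPhi cPh]; linarith
  intro x hx
  have h6 := SI_eq_zero (f := fun x => D.Phi x - D.Ph x) (cPhi.sub cPh)
    (fun y hy => by have := hle y hy; linarith) h5 hx
  have h7 := hS x hx
  have h8 : ∑ i, D.b x i ^ 2 = 0 := by
    have e : D.Phi x - D.Ph x = 1 / 3 * (tr (D.A x) * ∑ i, D.b x i ^ 2 -
        qf (D.A x) (D.b x) (D.b x)) := by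
      unfold Ten.Ph Ten.Phi; ring
    rw [e] at h6
    have := hb0 x
    nlinarith
  funext i
  have h9 := (Finset.sum_eq_zero_iff_of_nonneg fun i _ => sq_nonneg (D.b x i)).1 h8 i
    (Finset.mem_univ i)
  exact pow_eq_zero_iff two_ne_zero |>.1 h9

/-- A smooth function of degree zero without gradient on the sphere is constant. -/
lemma const_of_pd [hn : Fact (3 ≤ n)] {r : E n → ℝ} (hr : Q r)
    (h : ∀ x : E n, ‖x‖ = 1 → ∀ i, pd i r x = 0) : ∃ c : ℝ, ∀ x : E n, x ≠ 0 → r x = c := by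
  obtain ⟨c, hc⟩ := rot_const hr (fun a b => by
    have e : SI (fun x => Rot a b r x ^ 2) = SI (fun _ : E n => 0) := SI_congr fun x hx => by
      unfold Rot
      rw [h x hx, h x hx]; ring
    rw [e, SI_const, mul_zero])
  refine ⟨c, fun x hx => ?_⟩
  have hn' := norm_ne_zero_iff.2 hx
  have hy : ‖‖x‖⁻¹ • x‖ = 1 := by rw [norm_smul, norm_inv, norm_norm, inv_mul_cancel₀ hn']
  have e := hr.hom (‖x‖⁻¹ • x) (ne_zero_of_one hy) ‖x‖ (norm_pos_iff.2 hx)
  rw [smul_inv_smul₀ hn', hc _ hy] at e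
  simpa using e

/-- Equality in the null shell inequality forces the time function to be constant. -/
theorem main_eq_U [hn : Fact (3 ≤ n)] (D : Dat n)
    (heq : SI D.Phi ^ (n - 1) = ((n : ℝ) - 1) ^ (n - 1) * om n * SI D.dt ^ (n - 2)) :
    ∃ u : ℝ, ∀ x : E n, x ≠ 0 → D.U x = u := by
  obtain ⟨T, hA, hb, hG⟩ := toTen D
  have e1 : SI T.G = SI D.dt := SI_congr hG
  have e2 : SI T.Phi = SI D.Phi := by
    unfold Ten.Phi Dat.Phi
    rw [hA, hb]
  have h1 := core_eq_b T (by rw [e1, e2]; exact heq)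
  refine const_of_pd ⟨D.smU, D.homU⟩ fun x hx => ?_
  have hb0 : D.b x = 0 := by rw [← hb]; exact h1 x hx
  have h0 := ne_zero_of_one hx
  have h2 : (D.M x)⁻¹.mulVec (fun j => pd j D.U x) = 0 := by
    funext i
    have := congrFun hb0 i
    unfold Dat.b at this
    rw [hx] at this
    simpa [Matrix.mulVec, dotProduct] using this
  have h3 : (fun j => pd j D.U x) = 0 := by
    have h4 : (D.M x).mulVec ((D.M x)⁻¹.mulVec (fun j => pd j D.U x)) = fun j => pd j D.U x := by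
      rw [Matrix.mulVec_mulVec, Matrix.mul_nonsing_inv _ (D.det_ne h0).isUnit, Matrix.one_mulVec]
    rw [← h4, h2, Matrix.mulVec_zero]
  exact fun i => congrFun h3 i

end Vale.Agent.P366.H353.N
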