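import Vale.Agent.P366.H381.NE2

/-! Derivatives of the determinant and of the trace of the cofactor matrix along multiples of the
projection. -/

open MeasureTheory Metric Filter Topology Set
open scoped ContDiff Matrix

noncomputable section
namespace Vale.Agent.P366.H353.N

open Vale.Agent.P366 (sphI sphM pd E)

namespace NE

variable {n : ℕ} {x : E n} {N : Matrix (Fin n) (Fin n) ℝ} {s : ℝ}

/-- the projection as a matrix -/
def PM (x : E n) : Matrix (Fin n) (Fin n) ℝ := Matrix.of fun i j => pr x i j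

/-- `N + s P` -/
def Ns (N : Matrix (Fin n) (Fin n) ℝ) (x : E n) (s : ℝ) : Matrix (Fin n) (Fin n) ℝ :=
  Matrix.of fun i j => N i j + s * pr x i j

/-- trace of the tangential cofactor matrix -/
def sgm (N : Matrix (Fin n) (Fin n) ℝ) : ℝ := N.adjugate.trace - N.det

/-- twice the second elementary symmetric function of the inverse, times the determinant -/
def kpm (N : Matrix (Fin n) (Fin n) ℝ) : ℝ :=
  (sgm N ^ 2 - (N.adjugate * N.adjugate).trace + N.det ^ 2) / N.det

lemma xx (hx : ‖x‖ = 1) : (x : Fin n → ℝ) ⬝ᵥ x = 1 := by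
  have h := EuclideanSpace.real_norm_sq_eq x
  rw [hx] at h
  simp only [dotProduct]
  have e : ∑ i, x i * x i = ∑ i, x i ^ 2 := Finset.sum_congr rfl fun i _ => (sq (x i)).symm
  rw [e, ← h]
  norm_num

lemma Ns_deriv (N : Matrix (Fin n) (Fin n) ℝ) (x : E n) (s : ℝ) (i j : Fin n) :
    HasDerivAt (fun s => Ns N x s i j) (PM x i j) s := by
  have h : (fun s => Ns N x s i j) = fun s => N i j + s * pr x i j := by
    funext s; simp [Ns]
  rw [h]
  have := ((hasDerivAt_id s).mul_const (pr x i j)).const_add (N i j)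
  simpa [PM] using this

lemma pr_mulVec (hx : ‖x‖ = 1) (i : Fin n) : ∑ j, pr x i j * x j = 0 := by
  have h := xx hx
  unfold pr
  simp only [sub_mul, Finset.sum_sub_distrib]
  have e1 : ∑ j, kd i j * x j = x i := by simp [kd]
  have e2 : ∑ j, x i * x j * x j = x i := by
    simp only [mul_assoc, ← Finset.mul_sum]
    simp only [dotProduct] at h
    rw [h, mul_one]
  rw [e1, e2, sub_self]

lemma Ns_mulVec (hx : ‖x‖ = 1) (hN : N.mulVec x = x) : (Ns N x s).mulVec x = x := by
  funext i
  have h1 := congrFun hN i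
  simp only [Matrix.mulVec, dotProduct] at h1
  simp only [Ns, Matrix.mulVec, dotProduct, Matrix.of_apply, add_mul, Finset.sum_add_distrib,
    mul_assoc, ← Finset.mul_sum]
  rw [h1, pr_mulVec hx, mul_zero, add_zero]

lemma Ns_symm (hs : N.transpose = N) : (Ns N x s).transpose = Ns N x s := by
  ext i j
  have h := congrFun (congrFun hs j) i
  rw [Matrix.transpose_apply] at h
  simp only [Ns, Matrix.transpose_apply, Matrix.of_apply, pr]
  rw [← h, D208.kd_comm i j]
  ring

lemma adj_mulVec (hN : N.mulVec x = x) : N.adjugate.mulVec x = N.det • (x : Fin n → ℝ) := by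
  conv_lhs => rw [← hN]
  rw [Matrix.mulVec_mulVec, Matrix.adjugate_mul, Matrix.smul_mulVec, Matrix.one_mulVec]

/-- `tr (B P) = tr B - x · B x` -/
lemma trace_PM (B : Matrix (Fin n) (Fin n) ℝ) (x : E n) :
    (B * PM x).trace = B.trace - (x : Fin n → ℝ) ⬝ᵥ B.mulVec x := by
  simp only [Matrix.trace, Matrix.diag_apply, Matrix.mul_apply, PM, Matrix.of_apply, pr, kd,
    mul_sub, mul_ite, mul_one, mul_zero, Finset.sum_sub_distrib, Finset.sum_ite_eq',
    Finset.mem_univ, if_true]
  congr 1
  simp only [dotProduct, Matrix.mulVec, Finset.mul_sum]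
  exact Finset.sum_congr rfl fun i _ => Finset.sum_congr rfl fun j _ => by ring

theorem hasDerivAt_det (hx : ‖x‖ = 1) (hN : N.mulVec x = x) (s : ℝ) :
    HasDerivAt (fun s => (Ns N x s).det) (sgm (Ns N x s)) s := by
  have h1 := MC.hasDerivAt_det (N := fun s => Ns N x s) (N' := PM x) (t := s)
    (fun i j => Ns_deriv N x s i j)
  have h2 : ((Ns N x s).adjugate * PM x).trace = sgm (Ns N x s) := by
    rw [trace_PM, adj_mulVec (Ns_mulVec hx hN), dotProduct_smul, xx hx]
    simp [sgm]
  rw [h2] at h1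
  exact h1

lemma adj_diff (N : Matrix (Fin n) (Fin n) ℝ) (x : E n) (s : ℝ) (i j : Fin n) :
    ∃ d, HasDerivAt (fun s => (Ns N x s).adjugate i j) d s := by
  have h1 := MC.hasDerivAt_det (N := fun s => (Ns N x s).updateRow j (Pi.single i 1))
    (N' := (PM x).updateRow j 0) (t := s) (by
      intro a b
      by_cases ha : a = j
      · subst ha
        simp only [Matrix.updateRow_self]
        exact hasDerivAt_const _ _
      · simp only [Matrix.updateRow_ne ha]
        exact Ns_deriv N x s a b)
  refine ⟨(((Ns N x s).updateRow j (Pi.single i 1)).adjugate * (PM x).updateRow j 0).trace, ?_⟩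
  simp only [Matrix.adjugate_apply]
  exact h1

theorem hasDerivAt_sgm (hx : ‖x‖ = 1) (hN : N.mulVec x = x)
    (hd0 : (Ns N x s).det ≠ 0) :
    HasDerivAt (fun s => sgm (Ns N x s)) (kpm (Ns N x s)) s := by
  choose d hd using fun i j => adj_diff N x s i j
  set K := Ns N x s with hK
  have hdet : K.det ≠ 0 := hd0
  have h1 : PM x * K.adjugate + K * Matrix.of d = sgm K • (1 : Matrix (Fin n) (Fin n) ℝ) := by
    ext i j
    have h2 : HasDerivAt (fun s => (Ns N x s * (Ns N x s).adjugate) i j)
        (∑ k, (PM x i k * K.adjugate k j + K i k * d k j)) s := by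
      simp only [Matrix.mul_apply]
      exact HasDerivAt.fun_sum fun k _ => (Ns_deriv N x s i k).mul (hd k j)
    have h3 : HasDerivAt (fun s => (Ns N x s * (Ns N x s).adjugate) i j)
        (sgm K * (1 : Matrix (Fin n) (Fin n) ℝ) i j) s := by
      simp only [Matrix.mul_adjugate, Matrix.smul_apply, smul_eq_mul]
      exact (hasDerivAt_det hx hN s).mul_const _
    have h4 := h2.unique h3
    rw [Matrix.add_apply, Matrix.mul_apply, Matrix.mul_apply, ← Finset.sum_add_distrib,
      Matrix.smul_apply, smul_eq_mul]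
    simpa using h4
  have h5 : (Matrix.of d).trace = sgm K * (K⁻¹).trace - (K⁻¹ * (PM x * K.adjugate)).trace := by
    have h6 : Matrix.of d = sgm K • K⁻¹ - K⁻¹ * (PM x * K.adjugate) := by
      have h7 : K * Matrix.of d = sgm K • (1 : Matrix (Fin n) (Fin n) ℝ) -
          PM x * K.adjugate := by rw [← h1]; simp
      calc Matrix.of d = K⁻¹ * (K * Matrix.of d) := by
            rw [← Matrix.mul_assoc, Matrix.nonsing_inv_mul _ hdet.isUnit, Matrix.one_mul]
        _ = _ := by rw [h7, Matrix.mul_sub, Matrix.mul_smul, Matrix.mul_one]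
    rw [h6, Matrix.trace_sub, Matrix.trace_smul, smul_eq_mul]
  have h8 : HasDerivAt (fun s => sgm (Ns N x s)) ((Matrix.of d).trace - sgm K) s := by
    have h9 : HasDerivAt (fun s => (Ns N x s).adjugate.trace) (Matrix.of d).trace s := by
      simp only [Matrix.trace, Matrix.diag_apply, Matrix.of_apply]
      exact HasDerivAt.fun_sum fun i _ => hd i i
    exact h9.sub (hasDerivAt_det hx hN s)
  have hadj : K.adjugate = K.det • K⁻¹ := by
    rw [Matrix.inv_def, Ring.inverse_eq_inv', smul_smul, mul_inv_cancel₀ hdet, one_smul]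
  have hKx : K.mulVec x = x := Ns_mulVec hx hN
  have hinvx : K⁻¹.mulVec x = x := by
    conv_lhs => rw [← hKx]
    rw [Matrix.mulVec_mulVec, Matrix.nonsing_inv_mul _ hdet.isUnit, Matrix.one_mulVec]
  have hxx : (x : Fin n → ℝ) ⬝ᵥ x = 1 := xx hx
  have h10 : (K⁻¹ * (PM x * K.adjugate)).trace = K.det * ((K⁻¹ * K⁻¹).trace - 1) := by
    rw [hadj, Matrix.mul_smul, Matrix.mul_smul, Matrix.trace_smul, smul_eq_mul, ← Matrix.mul_assoc,
      Matrix.trace_mul_comm, ← Matrix.mul_assoc, trace_PM, ← Matrix.mulVec_mulVec, hinvx, hinvx,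
      hxx]
  have hsg : sgm K = K.det * (K⁻¹.trace - 1) := by
    unfold sgm
    rw [hadj, Matrix.trace_smul, smul_eq_mul]; ring
  have h11 : kpm K = (Matrix.of d).trace - sgm K := by
    rw [h5, h10]
    unfold kpm
    rw [hsg, hadj, Matrix.smul_mul, Matrix.mul_smul, smul_smul, Matrix.trace_smul, smul_eq_mul]
    field_simp
    ring
  rw [h11]
  exact h8

end NE

end Vale.Agent.P366.H353.N
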