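import Vale.Agent.P366.H381.NE3a
import Vale.Agent.P366.H296.N.Par

/-! The first variation of the null shell inequality in the time function. -/

open MeasureTheory Metric Filter Topology Set
open scoped ContDiff Matrix

noncomputable section
namespace Vale.Agent.P366.H353.N

open Vale.Agent.P366 (sphI sphM pd E)

variable {n : ℕ} [hn : Fact (3 ≤ n)]

/-- Uniform positivity on the tangent spaces. -/
lemma ell_gen {B : E n → Fin n → Fin n → ℝ}
    (hB : ∀ i j, ContinuousOn (fun x => B x i j) (sphere (0 : E n) 1))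
    (pos : ∀ x : E n, ‖x‖ = 1 → ∀ v : Fin n → ℝ, ∑ i, x i * v i = 0 → v ≠ 0 → 0 < qf (B x) v v) :
    ∃ c : ℝ, 0 < c ∧ ∀ x : E n, ‖x‖ = 1 → ∀ v : Fin n → ℝ,
    ∑ i, x i * v i = 0 → c * ∑ i, v i ^ 2 ≤ qf (B x) v v := by
  have n3 := hn.out
  set S : Set (E n) := sphere (0 : E n) 1 with hS
  set K : Set (E n × E n) := (S ×ˢ S) ∩ {p | ∑ i, p.1 i * p.2 i = 0} with hK
  have hKc : IsCompact K := by
    refine ((isCompact_sphere _ _).prod (isCompact_sphere _ _)).inter_right ?_
    exact isClosed_eq (by fun_prop) continuous_const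
  have hsm : ∀ i j, ContinuousOn (fun p : E n × E n => B p.1 i j) K := by
    intro i j
    refine (hB i j).comp continuousOn_fst fun p hp => hp.1.1
  have hco : ∀ i, ContinuousOn (fun p : E n × E n => p.2 i) K := by
    intro i
    have : Continuous fun p : E n × E n => p.2 i := by fun_prop
    exact this.continuousOn
  have hqc : ContinuousOn (fun p : E n × E n => qf (B p.1) (fun i => p.2 i) (fun i => p.2 i)) K := by
    unfold qf
    exact continuousOn_finsetSum _ fun i _ => continuousOn_finsetSum _ fun j _ =>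
      ((hsm i j).mul (hco i)).mul (hco j)
  have hne : K.Nonempty := by
    set i0 : Fin n := ⟨0, by omega⟩
    set i1 : Fin n := ⟨1, by omega⟩
    refine ⟨(EuclideanSpace.single i0 1, EuclideanSpace.single i1 1), ⟨by simp [hS], by simp [hS]⟩, ?_⟩
    simp [i0, i1, PiLp.single_apply]
  obtain ⟨p, hp, hmin⟩ := hKc.exists_isMinOn hne hqc
  have hp1 : ‖p.1‖ = 1 := by simpa [hS] using hp.1.1
  have hp2 : ‖p.2‖ = 1 := by simpa [hS] using hp.1.2
  refine ⟨qf (B p.1) (fun i => p.2 i) (fun i => p.2 i), ?_, fun x hx v hv => ?_⟩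
  · refine pos p.1 hp1 _ hp.2 fun h0 => ?_
    have : p.2 = 0 := by ext i; exact congrFun h0 i
    rw [this] at hp2
    simp at hp2
  · by_cases hv0 : v = 0
    · subst hv0
      simp [qf]
    · set w : E n := WithLp.toLp 2 v with hw
      have hw0 : w ≠ 0 := fun h => hv0 (by funext i; exact congrArg (fun z : E n => z i) h)
      have hwn : 0 < ‖w‖ := norm_pos_iff.2 hw0
      have hws : ‖w‖ ^ 2 = ∑ i, v i ^ 2 := EuclideanSpace.real_norm_sq_eq w
      have hmem : (x, ‖w‖⁻¹ • w) ∈ K := by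
        refine ⟨⟨by simpa [hS] using hx, ?_⟩, ?_⟩
        · simp only [hS, mem_sphere_iff_norm, sub_zero, norm_smul, norm_inv, norm_norm]
          exact inv_mul_cancel₀ hwn.ne'
        · show ∑ i, x i * (‖w‖⁻¹ • w) i = 0
          have : ∀ i, x i * (‖w‖⁻¹ • w) i = ‖w‖⁻¹ * (x i * v i) := by
            intro i
            rw [PiLp.smul_apply, smul_eq_mul]
            ring
          simp only [this, ← Finset.mul_sum, hv, mul_zero]
      have h1 := hmin hmem
      have h2 : qf (B x) (fun i => (‖w‖⁻¹ • w) i) (fun i => (‖w‖⁻¹ • w) i) =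
          (‖w‖ ^ 2)⁻¹ * qf (B x) v v := by
        unfold qf
        rw [Finset.mul_sum]
        refine Finset.sum_congr rfl fun i _ => ?_
        rw [Finset.mul_sum]
        refine Finset.sum_congr rfl fun j _ => ?_
        simp only [PiLp.smul_apply, smul_eq_mul]
        change B x i j * (‖w‖⁻¹ * v i) * (‖w‖⁻¹ * v j) = _
        field_simp
      simp only [mem_ofPred_eq] at h1
      rw [h2] at h1
      rw [← hws]
      calc qf (B p.1) (fun i => p.2 i) (fun i => p.2 i) * ‖w‖ ^ 2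
          ≤ (‖w‖ ^ 2)⁻¹ * qf (B x) v v * ‖w‖ ^ 2 :=
            mul_le_mul_of_nonneg_right h1 (by positivity)
        _ = qf (B x) v v := by field_simp

namespace Dat

variable (D : Dat n)

/-- a bound of a function on the sphere -/
lemma bound {φ : E n → ℝ} (hφ : ContinuousOn φ (sphere (0 : E n) 1)) :
    ∃ K : ℝ, 0 < K ∧ ∀ x : E n, ‖x‖ = 1 → |φ x| ≤ K := by
  obtain ⟨K, hK⟩ := (isCompact_sphere (0 : E n) 1).exists_bound_of_continuousOn hφ
  exact ⟨max K 1, lt_max_of_lt_right one_pos, fun x hx =>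
    (hK x (by simpa using hx)).trans (le_max_left _ _)⟩

/-- `U` can be perturbed. -/
lemma exists_pert {φ : E n → ℝ} (hφ : Q φ) : ∃ e : ℝ, 0 < e ∧ ∀ t : ℝ, |t| ≤ e →
    ∀ x : E n, ‖x‖ = 1 → ∀ v : Fin n → ℝ, ∑ i, x i * v i = 0 → v ≠ 0 →
      0 < qf (fun i j => hs D.H i j x) v v + (D.U x + t * φ x) * ∑ i, v i ^ 2 := by
  have hq : ∀ x : E n, ∀ v : Fin n → ℝ, qf (fun i j => hs D.H i j x + D.U x * kd i j) v v =
      qf (fun i j => hs D.H i j x) v v + D.U x * ∑ i, v i ^ 2 := by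
    intro x v
    unfold qf
    simp only [add_mul, Finset.sum_add_distrib]
    congr 1
    rw [Finset.mul_sum]
    refine Finset.sum_congr rfl fun i _ => ?_
    have : ∀ j, D.U x * kd i j * v i * v j = D.U x * v i * (kd i j * v j) := fun j => by ring
    simp only [this, ← Finset.mul_sum, D208.kd_mul]
    ring
  obtain ⟨c, hc, h⟩ := ell_gen (B := fun x i j => hs D.H i j x + D.U x * kd i j)
    (fun i j => ((D.smH.hs i j).add (D.smU.mul (Sm.const _))).contOn)
    (fun x hx v hv hv0 => by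
      rw [hq]
      exact D.pos x hx v hv hv0)
  obtain ⟨K, hK, hb⟩ := bound hφ.sm.contOn
  refine ⟨c / (2 * K), by positivity, fun t ht x hx v hv hv0 => ?_⟩
  have h1 := h x hx v hv
  rw [hq] at h1
  have h2 : 0 < ∑ i, v i ^ 2 := by
    obtain ⟨i, hi⟩ := Function.ne_iff.1 hv0
    have : 0 < v i ^ 2 := by
      have : v i ≠ 0 := hi
      positivity
    exact lt_of_lt_of_le this (Finset.single_le_sum (f := fun i => v i ^ 2)
      (fun j _ => sq_nonneg _) (Finset.mem_univ i))
  have h3 : |t * φ x| ≤ c / 2 := by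
    rw [abs_mul]
    calc |t| * |φ x| ≤ c / (2 * K) * K := mul_le_mul ht (hb x hx) (abs_nonneg _) (by positivity)
      _ = c / 2 := by field_simp
  have h4 := (abs_le.1 h3).1
  have h5 : - (c / 2) * ∑ i, v i ^ 2 ≤ t * φ x * ∑ i, v i ^ 2 :=
    mul_le_mul_of_nonneg_right h4 h2.le
  have h6 : 0 < c / 2 * ∑ i, v i ^ 2 := by positivity
  nlinarith

/-- the perturbed data -/
def pert {φ : E n → ℝ} (hφ : Q φ) (t : ℝ)
    (h : ∀ x : E n, ‖x‖ = 1 → ∀ v : Fin n → ℝ, ∑ i, x i * v i = 0 → v ≠ 0 →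
      0 < qf (fun i j => hs D.H i j x) v v + (D.U x + t * φ x) * ∑ i, v i ^ 2) : Dat n where
  H := D.H
  U := fun x => D.U x + t * φ x
  smH := D.smH
  smU := D.smU.add ((Sm.const t).mul hφ.sm)
  homH := D.homH
  homU := D.homU.add (hφ.hom.cmul t)
  pos := h

/-- the perturbed matrix -/
def Mt (φ : E n → ℝ) (t : ℝ) (x : E n) : Matrix (Fin n) (Fin n) ℝ := NE.Ns (D.M x) x (t * φ x)

variable {φ : E n → ℝ} (hφ : Q φ) {t : ℝ}
    (h : ∀ x : E n, ‖x‖ = 1 → ∀ v : Fin n → ℝ, ∑ i, x i * v i = 0 → v ≠ 0 →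
      0 < qf (fun i j => hs D.H i j x) v v + (D.U x + t * φ x) * ∑ i, v i ^ 2)

lemma pert_M {x : E n} (hx : ‖x‖ = 1) : (D.pert hφ t h).M x = D.Mt φ t x := by
  ext i j
  simp only [Mt, NE.Ns, Dat.M, Matrix.of_apply, Dat.W, pert, hx, pr]
  ring

lemma M_mulVec {x : E n} (hx : x ≠ 0) : (D.M x).mulVec x = x := by
  funext i
  exact D.M_x hx i

lemma tr_A {x : E n} (hx : ‖x‖ = 1) : tr (D.A x) = NE.sgm (D.M x) := by
  have h1 := NE.xx hx
  unfold tr NE.sgm Dat.A Dat.dt
  rw [hx]
  simp only [Finset.sum_sub_distrib, ← Finset.mul_sum]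
  simp only [dotProduct] at h1
  have : ∑ i, x i * x i / (1 : ℝ) ^ 2 = 1 := by
    rw [← Finset.sum_div, h1]; norm_num
  rw [this, mul_one]
  rfl

lemma ip_A {x : E n} (hx : ‖x‖ = 1) :
    ip (D.A x) (D.A x) = ((D.M x).adjugate * (D.M x).adjugate).trace - D.dt x ^ 2 := by
  have h0 := ne_zero_of_one hx
  have h1 := NE.xx hx
  simp only [dotProduct] at h1
  have hA : ∀ i j, (D.M x).adjugate i j = D.A x i j + D.dt x * (x i * x j) := by
    intro i j
    unfold Dat.A
    rw [hx]; ring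
  simp only [Matrix.trace, Matrix.diag_apply, Matrix.mul_apply, hA]
  have e : ∀ i, ∑ j, (D.A x i j + D.dt x * (x i * x j)) * (D.A x j i + D.dt x * (x j * x i)) =
      ∑ j, D.A x i j * D.A x i j + 2 * D.dt x * x i * (∑ j, D.A x i j * x j) +
        D.dt x ^ 2 * (x i * x i) * ∑ j, x j * x j := by
    intro i
    simp only [Finset.mul_sum, ← Finset.sum_add_distrib]
    refine Finset.sum_congr rfl fun j _ => ?_
    rw [D.A_symm x j i]; ring
  simp only [e, D.A_x h0, h1, mul_zero, add_zero, mul_one, Finset.sum_add_distrib,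
    ← Finset.mul_sum]
  unfold ip
  ring

/-- twice the second symmetric function of the curvatures times the area density -/
def kD (x : E n) : ℝ := (tr (D.A x) ^ 2 - ip (D.A x) (D.A x)) / D.dt x

lemma kD_eq {x : E n} (hx : ‖x‖ = 1) : D.kD x = NE.kpm (D.M x) := by
  unfold kD NE.kpm
  rw [D.tr_A hx, D.ip_A hx]
  have : D.dt x = (D.M x).det := rfl
  rw [this]
  ring

lemma sm_dt : Sm D.dt := MC.sm_det D.smM

lemma hom_dt : Hom 0 D.dt := fun x hx r hr => by
  unfold Dat.dt
  rw [D.M_smul hx hr]; simp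

lemma sm_kD : Sm D.kD := by
  unfold kD tr ip
  refine Sm.div (((Sm.sum _ fun i => D.smA i i).pow 2).sub
    (Sm.sum _ fun i => Sm.sum _ fun j => (D.smA i j).mul (D.smA i j))) D.sm_dt
    fun x hx => (D.dt_pos hx).ne'

lemma A_smul {x : E n} (hx : x ≠ 0) {r : ℝ} (hr : 0 < r) (i j : Fin n) :
    D.A (r • x) i j = D.A x i j := by
  have := D.homA i j x hx r hr
  simpa using this

lemma hom_kD : Hom 0 D.kD := fun x hx r hr => by
  have h1 := D.hom_dt x hx r hr
  unfold kD tr ip
  simp only [D.A_smul hx hr]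
  rw [h1]; simp

lemma hom_tr : Hom 0 fun x => tr (D.A x) := fun x hx r hr => by
  unfold tr
  simp only [D.A_smul hx hr]
  simp

lemma sm_tr : Sm fun x => tr (D.A x) := Sm.sum _ fun i => D.smA i i

/-- continuity of the perturbed matrix in both variables -/
lemma Mt_cont (hφ : Q φ) {S : Set ℝ} :
    ContinuousOn (fun p : ℝ × E n => D.Mt φ p.1 p.2) (S ×ˢ sphere (0 : E n) 1) := by
  refine continuousOn_pi.2 fun i => continuousOn_pi.2 fun j => ?_
  have hc : ∀ k : Fin n, ContinuousOn (fun p : ℝ × E n => p.2 k) (S ×ˢ sphere (0 : E n) 1) :=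
    fun k => ((EuclideanSpace.proj (𝕜 := ℝ) k).continuous.comp continuous_snd).continuousOn
  have hh : ContinuousOn (fun p : ℝ × E n => D.M p.2 i j) (S ×ˢ sphere (0 : E n) 1) :=
    (D.smM i j).contOn.comp continuous_snd.continuousOn fun p hp => hp.2
  have hf : ContinuousOn (fun p : ℝ × E n => φ p.2) (S ×ˢ sphere (0 : E n) 1) :=
    hφ.sm.contOn.comp continuous_snd.continuousOn fun p hp => hp.2
  have h1 : ContinuousOn (fun p : ℝ × E n => D.M p.2 i j +
      p.1 * φ p.2 * (kd i j - p.2 i * p.2 j)) (S ×ˢ sphere (0 : E n) 1) :=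
    hh.add ((continuous_fst.continuousOn.mul hf).mul
      (continuousOn_const.sub ((hc i).mul (hc j))))
  exact h1

end Dat

end Vale.Agent.P366.H353.N
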