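import Vale.Agent.P366.H381.NE3c

/-! The equality case of the null shell inequality. -/

open MeasureTheory Metric Filter Topology Set
open scoped ContDiff Matrix

noncomputable section
namespace Vale.Agent.P366.H353.N

open Vale.Agent.P366 (sphI sphM pd E)

variable {n : ℕ} [hn : Fact (3 ≤ n)]

lemma hs_norm {x : E n} (hx : ‖x‖ = 1) (i j : Fin n) : hs (fun y : E n => ‖y‖) i j x = pr x i j := by
  have hx0 := ne_zero_of_one hx
  unfold hs
  have hni : Sm fun x : E n => (‖x‖)⁻¹ := Sm.norm.inv fun x hx => norm_ne_zero_iff.2 hx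
  have h1 : pd i (fun y : E n => (‖y‖)⁻¹) x = - x i := by
    have h3 := pd_mul' Sm.norm hni hx0 i
    have h4 : pd i (fun y : E n => ‖y‖ * (‖y‖)⁻¹) x = 0 := by
      rw [pd_congr' (h := fun y : E n => ‖y‖ * (‖y‖)⁻¹) (f := fun _ => (1 : ℝ))
        (fun y hy => mul_inv_cancel₀ (norm_ne_zero_iff.2 hy)) hx0, Vale.Agent.P366.pd_const]
    rw [h4, pd_norm' hx0, hx] at h3
    norm_num at h3
    linarith
  rw [pd_congr' (h := pd j fun y : E n => ‖y‖) (f := fun y => y j * (‖y‖)⁻¹)
    (fun y hy => by rw [pd_norm' hy, div_eq_mul_inv]) hx0, pd_mul' (Sm.coord j) hni hx0, h1,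
    pd_coord', hx]
  unfold pr
  norm_num
  ring

lemma pr_tr {x : E n} (hx : ‖x‖ = 1) : ∑ i, pr x i i = (n : ℝ) - 1 := by
  have h := NE.xx hx
  simp only [dotProduct] at h
  simp only [pr, Finset.sum_sub_distrib, h]
  simp [kd]

lemma pr_sq {x : E n} (hx : ‖x‖ = 1) : ∑ i, ∑ j, pr x i j * pr x i j = (n : ℝ) - 1 := by
  have h := NE.xx hx
  simp only [dotProduct] at h
  have e : ∀ i, ∑ j, pr x i j * pr x i j = pr x i i := by
    intro i
    have e1 : ∀ j, pr x i j * pr x i j = kd i j * pr x i j - x i * (pr x i j * x j) := fun j => by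
      unfold pr; ring
    rw [Finset.sum_congr rfl fun j _ => e1 j, Finset.sum_sub_distrib, ← Finset.mul_sum,
      NE.pr_mulVec hx, mul_zero, sub_zero]
    simp [kd]
  rw [Finset.sum_congr rfl fun i _ => e i, pr_tr hx]

namespace Dat

variable (D : Dat n)

lemma ip_A_pr {x : E n} (hx : ‖x‖ = 1) : ip (D.A x) (pr x) = tr (D.A x) := by
  unfold ip tr
  refine Finset.sum_congr rfl fun i _ => ?_
  have e1 : ∀ j, D.A x i j * pr x i j = D.A x i j * kd i j - x i * (D.A x i j * x j) :=
    fun j => by unfold pr; ring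
  rw [Finset.sum_congr rfl fun j _ => e1 j, Finset.sum_sub_distrib, ← Finset.mul_sum,
    D.A_x (ne_zero_of_one hx), mul_zero, sub_zero]
  simp [kd]

/-- the square of the trace free part -/
lemma ip_Z {x : E n} (hx : ‖x‖ = 1) :
    ∑ i, ∑ j, (D.A x i j - tr (D.A x) / ((n : ℝ) - 1) * pr x i j) ^ 2 =
      ip (D.A x) (D.A x) - tr (D.A x) ^ 2 / ((n : ℝ) - 1) := by
  have n3 := hn.out
  have h3 : (3 : ℝ) ≤ n := by exact_mod_cast n3
  have h1 : (n : ℝ) - 1 ≠ 0 := by linarith
  set m := tr (D.A x) / ((n : ℝ) - 1) with hm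
  have e : ∀ i j, (D.A x i j - m * pr x i j) ^ 2 = D.A x i j * D.A x i j -
      2 * m * (D.A x i j * pr x i j) + m ^ 2 * (pr x i j * pr x i j) := fun i j => by ring
  simp only [e, Finset.sum_add_distrib, Finset.sum_sub_distrib, ← Finset.mul_sum]
  rw [pr_sq hx]
  have := D.ip_A_pr hx
  unfold ip at this ⊢
  rw [this, hm]
  field_simp
  ring

lemma A_scal {x : E n} (hx : ‖x‖ = 1) {μ : ℝ} (h : ∀ i j, D.A x i j = μ * pr x i j) (i j : Fin n) :
    μ * D.W x i j = D.dt x * pr x i j := by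
  have h0 := ne_zero_of_one hx
  have hadj : ∀ k, (D.M x).adjugate k j = μ * pr x k j + D.dt x * (x k * x j) := by
    intro k
    have := h k j
    unfold Dat.A at this
    rw [hx] at this
    linarith
  have h2 : ∑ k, D.M x i k * (D.M x).adjugate k j = D.dt x * kd i j := by
    have := congrFun (congrFun (Matrix.mul_adjugate (D.M x)) i) j
    rw [Matrix.mul_apply, Matrix.smul_apply, smul_eq_mul] at this
    rw [this]
    simp [Dat.dt, kd, Matrix.one_apply]
  have e : ∀ k, D.M x i k * (D.M x).adjugate k j =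
      μ * (D.M x i k * kd k j) - μ * x j * (D.M x i k * x k) +
        D.dt x * x j * (D.M x i k * x k) := fun k => by
    rw [hadj]; unfold pr; ring
  simp only [e, Finset.sum_add_distrib, Finset.sum_sub_distrib, ← Finset.mul_sum] at h2
  rw [D.M_x h0] at h2
  have h3 : ∑ k, D.M x i k * kd k j = D.M x i j := by simp [kd]
  rw [h3, D.M_apply, hx] at h2
  unfold pr
  linarith

/-- **The equality case of the null shell inequality.** -/
theorem main_eq (heq : SI D.Phi ^ (n - 1) = ((n : ℝ) - 1) ^ (n - 1) * om n * SI D.dt ^ (n - 2)) :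
    ∃ u w : ℝ, ∃ c : Fin n → ℝ, 0 < w ∧ (∀ x : E n, x ≠ 0 → D.U x = u) ∧
      ∀ x : E n, x ≠ 0 → D.H x = (w - u) * ‖x‖ + ∑ i, c i * x i := by
  have n3 := hn.out
  have h3 : (3 : ℝ) ≤ n := by exact_mod_cast n3
  have hn1 : (0 : ℝ) < (n : ℝ) - 1 := by linarith
  have hn2 : (0 : ℝ) < (n : ℝ) - 2 := by linarith
  obtain ⟨u, hU⟩ := main_eq_U D heq
  have hv := D.first_var heq
  have hom := om_pos (n := n)
  set V := SI D.dt with hV
  have cdt := D.sm_dt.contOn
  have ctr := D.sm_tr.contOn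
  have hVp : 0 < V := by
    rcases (SI_nonneg fun x hx => (D.dt_pos (ne_zero_of_one hx)).le : 0 ≤ SI D.dt).lt_or_eq with
      h | h
    · exact h
    · exfalso
      obtain ⟨y, hy⟩ := exists_norm_eq (E n) (zero_le_one' ℝ)
      have h1 := SI_eq_zero cdt (fun x hx => (D.dt_pos (ne_zero_of_one hx)).le) h.symm hy
      exact (D.dt_pos (ne_zero_of_one hy)).ne' h1
  have hEn : 0 ≤ SI D.Phi := SI_nonneg fun x hx => D.Phi_nonneg hx
  set Ee := SI D.Phi with hE
  have hEp : 0 < Ee := by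
    rcases hEn.lt_or_eq with h | h
    · exact h
    · exfalso
      rw [← h, zero_pow (by omega)] at heq
      have : 0 < ((n : ℝ) - 1) ^ (n - 1) * om n * V ^ (n - 2) := by positivity
      linarith
  have hEtr : SI (fun x => tr (D.A x)) = Ee := by
    refine SI_congr fun x hx => ?_
    have hb : D.b x = 0 := by
      funext i
      have : ∀ j, pd j D.U x = 0 := fun j => by
        rw [pd_congr' hU (ne_zero_of_one hx), Vale.Agent.P366.pd_const]
      simp [Dat.b, this]
    unfold Dat.Phi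
    rw [hb]
    simp [qf]
  -- the pointwise identity
  have hk : ∀ x : E n, ‖x‖ = 1 → ((n : ℝ) - 1) * V * (tr (D.A x) ^ 2 - ip (D.A x) (D.A x)) =
      ((n : ℝ) - 2) * Ee * (tr (D.A x) * D.dt x) := by
    intro x hx
    have h1 := hv x hx
    have hd := D.dt_pos (ne_zero_of_one hx)
    have h2 : D.kD x * D.dt x = tr (D.A x) ^ 2 - ip (D.A x) (D.A x) := by
      unfold Dat.kD
      field_simp
    have h4 : V ^ (n - 2) = V ^ (n - 3) * V := by
      rw [← pow_succ]; congr 1; omega
    have h5 : Ee ^ (n - 1) = Ee ^ (n - 2) * Ee := by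
      rw [← pow_succ]; congr 1; omega
    rw [h4, h5] at heq
    rw [← h2]
    have h6 : 0 < Ee ^ (n - 2) := by positivity
    refine mul_left_cancel₀ h6.ne' ?_
    calc Ee ^ (n - 2) * (((n : ℝ) - 1) * V * (D.kD x * D.dt x)) =
        (((n : ℝ) - 1) * Ee ^ (n - 2) * D.kD x) * (V * D.dt x) := by ring
      _ = (((n : ℝ) - 1) ^ (n - 1) * om n * ((n : ℝ) - 2) * V ^ (n - 3) * tr (D.A x)) *
          (V * D.dt x) := by rw [h1]
      _ = (((n : ℝ) - 1) ^ (n - 1) * om n * (V ^ (n - 3) * V)) * ((n : ℝ) - 2) *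
          (tr (D.A x) * D.dt x) := by ring
      _ = _ := by rw [← heq]; ring
  have hZ : ∀ x : E n, ‖x‖ = 1 →
      ((n : ℝ) - 1) * V * ∑ i, ∑ j, (D.A x i j - tr (D.A x) / ((n : ℝ) - 1) * pr x i j) ^ 2 =
      ((n : ℝ) - 2) * tr (D.A x) * (V * tr (D.A x) - Ee * D.dt x) := by
    intro x hx
    rw [D.ip_Z hx]
    have h1 := hk x hx
    field_simp
    linarith
  have htr0 : ∀ x : E n, ‖x‖ = 1 → 0 ≤ tr (D.A x) := by
    intro x hx
    obtain ⟨T, hA, -, -⟩ := toTen D
    rw [← hA]
    exact T.tr_nonneg hx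
  have htr : ∀ x : E n, ‖x‖ = 1 → 0 < tr (D.A x) := by
    intro x hx
    rcases (htr0 x hx).lt_or_eq with h | h
    · exact h
    · exfalso
      have h1 := hZ x hx
      rw [← h] at h1
      simp only [zero_div, zero_mul, sub_zero, mul_zero] at h1
      have h2 : ∑ i, ∑ j, D.A x i j ^ 2 = 0 := by
        rcases mul_eq_zero.1 h1 with h3 | h3
        · exact absurd h3 (by positivity)
        · exact h3
      have hA0 : ∀ i j, D.A x i j = 0 * pr x i j := by
        intro i j
        have h4 := (Finset.sum_eq_zero_iff_of_nonneg fun i _ =>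
          Finset.sum_nonneg fun j _ => sq_nonneg (D.A x i j)).1 h2 i (Finset.mem_univ i)
        have h5 := (Finset.sum_eq_zero_iff_of_nonneg fun j _ => sq_nonneg (D.A x i j)).1 h4 j
          (Finset.mem_univ j)
        rw [zero_mul]
        exact pow_eq_zero_iff two_ne_zero |>.1 h5
      have h6 : ∀ i, pr x i i = 0 := fun i => by
        have := D.A_scal hx hA0 i i
        rw [zero_mul] at this
        exact (mul_eq_zero.1 this.symm).resolve_left (D.dt_pos (ne_zero_of_one hx)).ne'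
      have h7 := pr_tr hx
      simp only [h6, Finset.sum_const_zero] at h7
      linarith
  have hle : ∀ x : E n, ‖x‖ = 1 → 0 ≤ V * tr (D.A x) - Ee * D.dt x := by
    intro x hx
    have h1 := hZ x hx
    have h2 : 0 ≤ ((n : ℝ) - 1) * V *
        ∑ i, ∑ j, (D.A x i j - tr (D.A x) / ((n : ℝ) - 1) * pr x i j) ^ 2 :=
      mul_nonneg (by positivity)
        (Finset.sum_nonneg fun i _ => Finset.sum_nonneg fun j _ => sq_nonneg _)
    rw [h1] at h2
    exact nonneg_of_mul_nonneg_right h2 (mul_pos hn2 (htr x hx))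
  have hSI : SI (fun x => V * tr (D.A x) - Ee * D.dt x) = 0 := by
    rw [SI_sub (f := fun x => V * tr (D.A x)) (h := fun x => Ee * D.dt x)
      (continuousOn_const.mul ctr) (continuousOn_const.mul cdt), SI_cmul, SI_cmul, hEtr]
    ring
  have heq' : ∀ x : E n, ‖x‖ = 1 → V * tr (D.A x) - Ee * D.dt x = 0 := fun x hx =>
    SI_eq_zero (f := fun x => V * tr (D.A x) - Ee * D.dt x)
      ((continuousOn_const.mul ctr).sub (continuousOn_const.mul cdt)) hle hSI hx
  have hAs : ∀ x : E n, ‖x‖ = 1 → ∀ i j, D.A x i j = tr (D.A x) / ((n : ℝ) - 1) * pr x i j := by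
    intro x hx i j
    have h1 := hZ x hx
    rw [heq' x hx, mul_zero] at h1
    have h2 : ∑ i, ∑ j, (D.A x i j - tr (D.A x) / ((n : ℝ) - 1) * pr x i j) ^ 2 = 0 := by
      rcases mul_eq_zero.1 h1 with h3 | h3
      · exact absurd h3 (by positivity)
      · exact h3
    have h4 := (Finset.sum_eq_zero_iff_of_nonneg fun i _ =>
      Finset.sum_nonneg fun j _ =>
        sq_nonneg (D.A x i j - tr (D.A x) / ((n : ℝ) - 1) * pr x i j)).1 h2 i (Finset.mem_univ i)
    have h5 := (Finset.sum_eq_zero_iff_of_nonneg fun j _ =>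
      sq_nonneg (D.A x i j - tr (D.A x) / ((n : ℝ) - 1) * pr x i j)).1 h4 j (Finset.mem_univ j)
    have := pow_eq_zero_iff two_ne_zero |>.1 h5
    linarith
  set w : ℝ := ((n : ℝ) - 1) * V / Ee with hw
  have hwp : 0 < w := by positivity
  have hW : ∀ x : E n, ‖x‖ = 1 → ∀ i j, D.W x i j = w * pr x i j := by
    intro x hx i j
    have h1 := D.A_scal hx (hAs x hx) i j
    have h2 := heq' x hx
    have h4 : D.dt x = V * tr (D.A x) / Ee := by
      field_simp
      linarith
    have h5 := htr x hx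
    rw [h4] at h1
    have h6 : tr (D.A x) / ((n : ℝ) - 1) ≠ 0 := by positivity
    refine mul_left_cancel₀ h6 ?_
    rw [h1, hw]
    field_simp
  have hH : ∀ x : E n, ‖x‖ = 1 → ∀ i j, hs D.H i j x = (w - u) * pr x i j := by
    intro x hx i j
    have h1 := hW x hx i j
    unfold Dat.W at h1
    rw [hx, hU x (ne_zero_of_one hx)] at h1
    unfold pr at h1 ⊢
    simp only [one_mul, one_pow, div_one] at h1
    linarith
  set G : E n → ℝ := fun x => D.H x - (w - u) * ‖x‖ with hG
  have sG : Sm G := D.smH.sub ((Sm.const _).mul Sm.norm)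
  have homG : Hom 1 G := D.homH.sub (Hom.norm.cmul _)
  have hpG : ∀ j, Q (pd j G) := fun j => ⟨sG.pd j, (homG.pd sG j).cast (by norm_num)⟩
  have hc : ∀ j, ∃ c : ℝ, ∀ x : E n, x ≠ 0 → pd j G x = c := by
    intro j
    refine const_of_pd (hpG j) fun x hx i => ?_
    have h0 := ne_zero_of_one hx
    have e : ∀ y : E n, y ≠ 0 → pd j G y = pd j D.H y - (w - u) * pd j (fun y => ‖y‖) y := by
      intro y hy
      rw [hG, pd_sub' D.smH ((Sm.const _).mul Sm.norm) hy, pd_cmul' Sm.norm _ hy]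
    rw [pd_congr' e h0, pd_sub' (D.smH.pd j) ((Sm.const _).mul (Sm.norm.pd j)) h0,
      pd_cmul' (Sm.norm.pd j) _ h0]
    have h1 := hH x hx i j
    have h2 := hs_norm hx i j
    unfold hs at h1 h2
    rw [h1, h2]
    ring
  choose c hc using hc
  refine ⟨u, w, c, hwp, hU, fun x hx => ?_⟩
  have h1 := homG.euler sG hx
  have h2 : ∑ i, x i * pd i G x = ∑ i, c i * x i :=
    Finset.sum_congr rfl fun i _ => by rw [hc i x hx, mul_comm]
  rw [h2] at h1
  simp only [hG, Int.cast_one, one_mul] at h1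
  linarith

end Dat

end Vale.Agent.P366.H353.N
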